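import Vale.Agent.P141.H639.CenSt
import Vale.Agent.P141.H927.LowBr

/-!
# P141, low edge: the costs of the level from the price on one box, gauge on the moving edge

`BoxL`: the box price of the centre atoms with the label vertex `x₂` and the gauge on the edge
`(x₁, x₃)` of the moving slot `F2`, one vector edge low.  `cenStL3_of_box : BoxL → CenStL3`.
-/

namespace Vale.Agent.P141.H639

open Finset Vale.Agent.P141.PL Vale.Agent.P141.PL.H560 Vale.Agent.P141.H48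
open Vale.Agent.P141.PL (Pt el fc)
open Vale.Agent.P141.PL.H321 (t12 t23)
open Vale.Agent.P141.PL.H315 (avg cube3 put le)
open Vale.Agent.P141.PL.H95 (gr)
open Vale.Agent.P141.PL.H855 (wN TT wN_congr update_apply_node)
open Vale.Agent.P141.H347.Gs (kap kap_self kap_ne Ex e2 e2_pos cwG)
open Vale.Agent.P141.H414 (sf jf cf usl_cf cf_good cmN_eq)
open Vale.Agent.P141.H444 (alR alv_alR esl_alR kl_alR rgN rgn_rgN nd_rgN esl_mono)
open Vale.Agent.P141.H572 (cosF)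
open Vale.Agent.P141.H736 (cost vals_nonempty)
open Vale.Agent.P141.H971 (Cen)
open Vale.Agent.P141.H927 (CenStL3)

noncomputable section

open scoped Classical

/-- **The box price with one low vector edge**, label vertex `x₂`, gauge on the edge `(x₁, x₃)` of
the moving slot `F2`. -/
def BoxL : Prop :=
  ∀ c η : ℝ, 0 ≤ c → c ≤ 1 → 0 < η → η ≤ 1 / 40 →
  ∀ Kt e cP e0 : ℝ, 0 < Kt → 1 ≤ e → 0 ≤ cP → 0 < e0 → ∃ C : ℝ, 0 ≤ C ∧
  ∀ t : ℝ, 0 < t → t ≤ 1 → ∀ (n : ℕ) (ez : ℝ) (F1 F2 F3 : ℕ → Pt → ℝ),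
    US n (Kt * t ^ (1 - c)) e cP F1 → US n (Kt * t ^ (1 - c)) e cP F3 → ES n ez cP F2 →
  ∀ o : ℤ, o = 1 ∨ o = -1 → ∀ K ≤ n, ∀ (x : Pt)
    (V : Type) [NormedAddCommGroup V] [InnerProductSpace ℝ V] [FiniteDimensional ℝ V]
    (h p W β : ℝ) (g : ℤ → ℤ → ℝ) (u v : ℤ → ℤ → V), 0 ≤ h → 0 ≤ p → 0 ≤ W → 0 < β → β ≤ 1 →
    Cen (PL.H315.iv K x.1) (PL.H315.iv K x.2.2) (PL.H315.iv K x.2.1) h p e0 W g u v →
    ((∀ z ∈ PL.H315.iv K x.2.1, ∀ y ∈ PL.H315.iv K x.1, ‖u z y‖ ^ 2 ≤ β ^ 2 * (h ^ 2 * e0)) ∨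
      ∀ z ∈ PL.H315.iv K x.2.1, ∀ y ∈ PL.H315.iv K x.2.2, ‖v z y‖ ^ 2 ≤ β ^ 2 * (h ^ 2 * e0)) →
    cosF o K x (cenf 1 0 2 g u v) (fun k _ => F1 k) (fun k _ => F2 k) (fun k _ => F3 k) ≤
      C * (t ^ (1 - c - η) * β ^ (1 / 8 : ℝ) * (√h * (p ^ 2 * √p)) * √ez * 8 ^ K)

section cst

variable {V : Type*} [NormedAddCommGroup V] [InnerProductSpace ℝ V]
variable {K : ℕ} {P : Finset ℤ → Finset ℤ → (ℤ → ℤ → ℝ) → Prop}
  {Q R : Finset ℤ → Finset ℤ → (ℤ → ℤ → V) → Prop}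

/-- the position of the label, of the split vertex and of the third vertex, the moving slot is `p`,
the gauge on the moving edge -/
def yl (p : Fin 3) : Fin 3 := match p with
  | 0 => 0
  | 1 => 1
  | 2 => 2

/-- the split vertex -/
def ym (p : Fin 3) : Fin 3 := match p with
  | 0 => 1
  | 1 => 0
  | 2 => 0

/-- the third vertex -/
def yn (p : Fin 3) : Fin 3 := match p with
  | 0 => 2
  | 1 => 2
  | 2 => 1

theorem dis_y (p : Fin 3) : Dis (yl p) (ym p) (yn p) := by revert p; decide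

/-- **the three positions of the moving slot** -/
theorem ceB_posG {t e X : ℝ} (h : CeB K t e X (CenC K P Q R 1 0 2)) {n : ℕ} (hn : K ≤ n)
    {F : Fin 3 → ℕ → Pt → ℝ} (p : Fin 3) (hU : ∀ j, j ≠ p → US n t e 52 (F j))
    (hE : ES n e 52 (F p)) {o : ℤ} (ho : o = 1 ∨ o = -1) (x : Pt) (f : Pt → ℝ)
    (hf : CenC K P Q R (yl p) (ym p) (yn p) x f) :
    cosF o K x f (fun k _ => F 0 k) (fun k _ => F 1 k) (fun k _ => F 2 k) ≤ X := by
  obtain rfl | rfl | rfl := fin3 p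
  · have h1 := h n hn (F 1) (F 0) (fun k => s23 (F 2 k)) (hU 1 (by decide)) hE
      (H414.US.s23 (hU 2 (by decide))) o ho (t12 x) _ (cen_t12 hf)
    exact (cosF_t12 o K x f (fun k _ => F 0 k) (fun k _ => F 1 k) (fun k _ => F 2 k)) ▸ h1
  · exact h n hn _ _ _ (hU 0 (by decide)) hE (hU 2 (by decide)) o ho x f hf
  · have h1 := h n hn (fun k => s23 (F 0 k)) (F 2) (F 1) (H414.US.s23 (hU 0 (by decide))) hE
      (hU 1 (by decide)) o ho (t23 x) _ (cen_t23 hf)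
    exact (cosF_t23 o K x f (fun k _ => F 0 k) (fun k _ => F 1 k) (fun k _ => F 2 k)) ▸ h1

/-- **The box costs of one role**, static companions on the alive cells, `jf i p` the moving slot. -/
theorem costCR_cenG {T0 : ℝ} (hT1 : 1 ≤ T0) (hT : CmpSt 7 T0) {t e X : ℝ} (ht : 0 ≤ t)
    (hte : t ^ 2 ≤ e) (h : CeB K (T0 * t) (T0 ^ 2 * e) X (CenC K P Q R 1 0 2)) {σ : ℤ}
    {al : ℕ → ℤ → Prop} (hal : Alv 7 σ al) {n : ℕ} (hn : K ≤ n) {f : Fin 4 → ℤ → ℝ} (i : Fin 4)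
    (p : Fin 3) (hE : ∀ j, ESl 7 σ al n e (f (jf i j)))
    (hU : ∀ j, j ≠ p → USl 7 σ al n (fc (jf i j)) t (f (jf i j))) {o : ℤ} (ho : o = 1 ∨ o = -1) :
    CostCR i o K X (CenC K P Q R (yl p) (ym p) (yn p)) (fun k _ j => kl al (f j) k) := by
  have he : 0 ≤ e := (sq_nonneg t).trans hte
  intro x w hw
  simp only [cmN_eq]
  refine ceB_posG (F := sf al f i) h hn p (fun j hj => ?_) ?_ ho x w hw
  · have g := cf_good i j
    exact (hT σ al hal n (cf i j) g.1 g.2.1 g.2.2.1 g.2.2.2.1 g.2.2.2.2.1 g.2.2.2.2.2 e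
      (f (jf i j)) he (hE j)).2 t ht hte (usl_cf i j (hU j hj))
  · have g := cf_good i p
    have h1 := (hT σ al hal n (cf i p) g.1 g.2.1 g.2.2.1 g.2.2.2.1 g.2.2.2.2.1 g.2.2.2.2.2 e
      (f (jf i p)) he (hE p)).1
    refine es_mono ?_ h1
    have : T0 * e ≤ T0 ^ 2 * e := mul_le_mul_of_nonneg_right (by nlinarith) he
    exact this

/-- **THE COST OF A CENTRE ATOM IN ANY POSITION**, for every class `kap z`, every role, both
orientations, from the box cost in the position with the gauge on the moving edge. -/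
theorem cost_cenG (hP : Clo P) (hQ : Clo Q) (hR : Clo R) {T0 : ℝ} (hT1 : 1 ≤ T0)
    (hT : CmpSt 7 T0) {σ : ℤ} {t : ℝ} {ht : 0 < t} {E : ℝ} {hE : 0 ≤ E} {e : ℝ} (hEe : E ≤ e)
    (hte : t ^ 2 ≤ e) {X : ℝ} (hX : 0 ≤ X)
    (h : CeB K (T0 * t) (T0 ^ 2 * e) X (CenC K P Q R 1 0 2)) (z r : Fin 4) {o : ℤ}
    (ho : o = 1 ∨ o = -1) {l m n : Fin 3} (hd : Dis l m n) {p : Pt} {f : Pt → ℝ}
    (hf : CenC K P Q R l m n p f) (x : ℤ) :
    cost (kap σ t ht E hE z) o r (pfw (fc r) K p f) K ((gr 7 σ).cube K x) ≤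
      1521 ^ 2 * (8 * X) := by
  refine csSup_le (vals_nonempty _ o r _ K x) ?_
  rintro v ⟨𝒩, A, hb, hA, rfl⟩
  obtain ⟨pz, O, h1, h2, h3⟩ := kap_stat z r hA
  have hRg := rgn_rgN hb
  have hW := nd_rgN hb
  have e1 : H736.val o r (pfw (fc r) K p f) 𝒩 A = ∑ N ∈ 𝒩, |wN o (Function.update
      (fun l => kl (alR K (rgN σ K 𝒩)) (O l) N.1) r (pfw (fc r) K p f)) N| := by
    unfold H736.val TT
    refine sum_congr rfl fun N hN => ?_
    rw [update_apply_node]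
    congr 1
    refine wN_congr ho fun j y hy => ?_
    have hy' := (hb N hN).2.2.1 hy
    by_cases hj : j = r
    · subst hj
      rw [Function.update_self, Function.update_self]
    · rw [Function.update_of_ne hj, Function.update_of_ne hj, h1 j hj N hN y hy']
      refine (kl_alR ?_).symm
      exact (hRg.const _ _ _ hy').2 (hW N hN).2.2
  rw [e1]
  have hcost : CostCR r o K X (CenC K P Q R (yl pz) (ym pz) (yn pz))
      (fun k _ j => kl (alR K (rgN σ K 𝒩)) (O j) k) :=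
    costCR_cenG hT1 hT ht.le hte h (alv_alR hRg) le_rfl r pz
      (fun j => esl_mono hEe (h2 j)) h3 ho
  exact cen_node hP hQ hR hX r hd (dis_y pz) _ hcost hf 𝒩 fun N hN =>
    ⟨(hb N hN).1, (hb N hN).2.1⟩

end cst

/-! ### The costs of the level -/

/-- a low height, asked only if `A` -/
def LowH {V : Type*} [NormedAddCommGroup V] (A : Prop) (B : ℝ) (I J : Finset ℤ)
    (u : ℤ → ℤ → V) : Prop :=
  A → ∀ z ∈ I, ∀ y ∈ J, ‖u z y‖ ^ 2 ≤ B

theorem clo_lowH {V : Type*} [NormedAddCommGroup V] (A : Prop) {B : ℝ} (hB : 0 ≤ B) :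
    Clo (V := V) (LowH A B) := by
  intro I J f I' J' f' hI hJ hs hp hA
  exact clo_pt (θ := fun w : V => ‖w‖ ^ 2) (by simpa using hB) _ _ _ _ _ _ hI hJ hs (hp hA)

/-- **The costs of the level from the box price.** -/
theorem cenStL3_of_box (H : BoxL) : CenStL3 := by
  intro c η hc0 hcc hη hη1 Kc e0 hKc he0
  set T0 : ℝ := H437.TT with hT0
  have hT : CmpSt 7 T0 := H437.cmpT
  have hT1 : 1 ≤ T0 := by
    rw [hT0]
    unfold H437.TT
    norm_num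
  set e1 : ℝ := 1 + Kc + Kc ^ 2 with he1
  have he1' : 1 ≤ e1 := by rw [he1]; nlinarith [sq_nonneg Kc]
  have hTe : 1 ≤ T0 ^ 2 * e1 := one_le_mul_of_one_le_of_one_le (one_le_pow₀ hT1) he1'
  obtain ⟨C, hC, H⟩ := H c η hc0 hcc hη hη1 (T0 * Kc) (T0 ^ 2 * e1) 52 e0
    (mul_pos (by linarith) hKc) hTe (by norm_num) he0
  refine ⟨8 * (1521 ^ 2 * (8 * (C * √(T0 ^ 2 * e1)))), by positivity, ?_⟩
  intro e heK hec σ r j k x q l m n hd V _ _ _ h p W β g u v hh hp hW hβ hβ1 hcen hlow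
  set t : ℝ := e2 (-1) j with ht
  have ht0 : 0 < t := e2_pos _ _
  have ht1 : t ≤ 1 := e2_neg_one_le j
  set Y : ℝ := C * (t ^ (1 - c - η) * β ^ (1 / 8 : ℝ) * (√h * (p ^ 2 * √p)) *
    √(T0 ^ 2 * e1) * 8 ^ k) with hY
  have hY0 : 0 ≤ Y := by positivity
  have htc : (e.mp j).t = Kc * t ^ (1 - c) := by
    show e.K * e2 (-(1 - e.c)) j = _
    rw [heK, hec, ht, e2_neg_one_rpow]
  have htc1 : t ^ (1 - c) ≤ 1 := Real.rpow_le_one ht0.le ht1 (by linarith)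
  have htc0 : 0 < t ^ (1 - c) := Real.rpow_pos_of_pos ht0 _
  have hE : (e.mp j).E ≤ e1 := by
    show e.K ≤ e1
    rw [heK, he1]
    nlinarith [sq_nonneg Kc]
  have hte : (e.mp j).t ^ 2 ≤ e1 := by
    rw [htc, mul_pow, he1]
    have h1 : (t ^ (1 - c)) ^ 2 ≤ 1 := pow_le_one₀ htc0.le htc1
    nlinarith [sq_nonneg Kc, mul_le_mul_of_nonneg_left h1 (sq_nonneg Kc)]
  set B : ℝ := β ^ 2 * (h ^ 2 * e0) with hBdef
  have hB0 : 0 ≤ B := by positivity
  set A : Prop := ∀ z ∈ PL.H315.iv k (co l q), ∀ y ∈ PL.H315.iv k (co m q), ‖u z y‖ ^ 2 ≤ B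
    with hA
  -- the box cost
  have hB : CeB k (T0 * (e.mp j).t) (T0 ^ 2 * e1) Y
      (CenC k (PCen h p)
        (fun I J (w : ℤ → ℤ → V) => QCen h p e0 W I J w ∧ LowH A B I J w)
        (fun I J (w : ℤ → ℤ → V) => RCen h p e0 W I J w ∧ LowH (¬ A) B I J w) 1 0 2) := by
    rintro n' hn' F1 F2 F3 h1 h2 h3 o ho y f ⟨g', u', v', rfl, ha1, ⟨hb, hb'⟩, hc', hc2⟩
    have e1' : T0 * (e.mp j).t = T0 * Kc * t ^ (1 - c) := by rw [htc]; ring
    rw [e1'] at h1 h3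
    refine H t ht0 ht1 n' _ F1 F2 F3 h1 h3 h2 o ho k hn' y V h p W β g' u' v' hh hp hW hβ hβ1
      (cen_iff.2 ⟨ha1, hb, hc'⟩) ?_
    by_cases hAA : A
    · exact Or.inl (hb' hAA)
    · exact Or.inr (hc2 hAA)
  obtain ⟨h1, h2, h3⟩ := cen_iff.1 hcen
  have key : ∀ a : Fin 4 × Bool, cost (((e.mp j).cw σ r).κ a) (((e.mp j).cw σ r).o a) r
      (pfw (fc r) k q (cenf l m n g u v)) k ((gr 7 σ).cube k x) ≤ 1521 ^ 2 * (8 * Y) := fun a =>
    cost_cenG (clo_pcen hh hp) ((clo_qcen hh hp he0.le hW).and (clo_lowH A hB0))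
      ((clo_rcen hh hp he0.le hW).and (clo_lowH (¬ A) hB0)) hT1 hT hE
      hte hY0 hB a.1 r (((e.mp j).cw σ r).ho a) hd ⟨g, u, v, rfl, h1,
        ⟨h2, fun hAA => hAA⟩, h3, fun hAA => hlow.resolve_left hAA⟩ x
  have e2' : ((e.mp j).cw σ r).cst (pfw (fc r) k q (cenf l m n g u v)) k
      ((gr 7 σ).cube k x) ≤ ∑ _a : Fin 4 × Bool, 1521 ^ 2 * (8 * Y) := by
    refine sum_le_sum fun a _ => ?_
    have : ((e.mp j).cw σ r).nrm a = 1 := rfl
    rw [this, div_one]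
    exact key a
  refine e2'.trans (le_of_eq ?_)
  rw [sum_const, card_univ, Fintype.card_prod, Fintype.card_fin, Fintype.card_bool, nsmul_eq_mul,
    hY, ht, e2_neg_one_rpow]
  push_cast
  ring

end

end Vale.Agent.P141.H639
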