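import Vale.Agent.P141.H639.Perm
import Mathlib.Analysis.InnerProductSpace.Basic

/-!
# P141, line W: the vertices of a centre atom may be permuted

`cenf l m n g u v y = g (y_m, y_n) ⟪u (y_l, y_m), v (y_l, y_n)⟫` is a centre atom whose label
vertex is the coordinate `l`.  A piece of its exchange `t` is the centre atom at the positions
`tp t l, tp t m, tp t n` of the cut edge functions `cutE` (`cutP_cenf`).  Every sum in one or in
two variables of a non negative function of a cut edge function is at most the same sum of the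
edge function (`row_le`, `col_le`, `mass_le`), so that pointwise bounds, masses, row and column
masses, potentials (`θ w = ⟪w, e⟫²`) and counts of supports are inherited.
-/

namespace Vale.Agent.P141.H639

open Finset
open Vale.Agent.P141.PL.H315 (iv mem_iv self_mem_iv card_iv iv_eq cube3 mem_cube3 card_cube3 Tri
  e12 e13 e23 atm avg)
open Vale.Agent.P141.PL (Pt el)

noncomputable section

/-- the coordinate `j` -/
def co (j : Fin 3) (z : Pt) : ℤ := match j with
  | 0 => z.1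
  | 1 => z.2.1
  | 2 => z.2.2

/-- the coordinate `j` of the substituted point, as a function of the coordinate `tp t j` -/
def su (t : Fin 3) (c : Pt) (i : ℤ × ℤ × ℤ × ℤ) (j : Fin 3) (x : ℤ) : ℤ := match t, j with
  | 0, 0 => x
  | 0, 1 => fr c.2.1 c.2.2 i.1 x
  | 0, 2 => fr c.2.2 c.2.1 i.2.1 x
  | 1, 0 => fr c.1 c.2.2 i.1 x
  | 1, 1 => x
  | 1, 2 => fr c.2.2 c.1 i.2.1 x
  | 2, 0 => fr c.1 c.2.1 i.1 x
  | 2, 1 => fr c.2.1 c.1 i.2.1 x
  | 2, 2 => x

/-- the condition on the coordinate `tp t j` -/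
def Kj (t : Fin 3) (c : Pt) (k : ℕ) (q : Pt) (i : ℤ × ℤ × ℤ × ℤ) (j : Fin 3) (x : ℤ) : Prop :=
  match t, j with
  | 0, 0 => True
  | 0, 1 => Kc c.2.1 c.2.2 i.2.1 i.1 k q.2.1 x
  | 0, 2 => Kc c.2.2 c.2.1 i.1 i.2.1 k q.2.2 x
  | 1, 0 => Kc c.1 c.2.2 i.2.1 i.1 k q.1 x
  | 1, 1 => True
  | 1, 2 => Kc c.2.2 c.1 i.1 i.2.1 k q.2.2 x
  | 2, 0 => Kc c.1 c.2.1 i.2.1 i.1 k q.1 x
  | 2, 1 => Kc c.2.1 c.1 i.1 i.2.1 k q.2.1 x
  | 2, 2 => True

theorem co_sb (t j : Fin 3) (c : Pt) (i : ℤ × ℤ × ℤ × ℤ) (z : Pt) :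
    co j (sb t c i z) = su t c i j (co (tp t j) z) := by
  obtain rfl | rfl | rfl := fin3 t <;> obtain rfl | rfl | rfl := fin3 j <;> rfl

theorem KP_iff (t : Fin 3) (c : Pt) (k : ℕ) (q : Pt) (i : ℤ × ℤ × ℤ × ℤ) (z : Pt) :
    KP t c k q i z ↔ ∀ j, Kj t c k q i j (co (tp t j) z) := by
  obtain rfl | rfl | rfl := fin3 t
  · constructor
    · rintro ⟨h1, h2⟩ j
      obtain rfl | rfl | rfl := fin3 j
      · trivial
      · exact h2
      · exact h1
    · intro h
      exact ⟨h 2, h 1⟩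
  · constructor
    · rintro ⟨h1, h2⟩ j
      obtain rfl | rfl | rfl := fin3 j
      · exact h2
      · trivial
      · exact h1
    · intro h
      exact ⟨h 2, h 0⟩
  · constructor
    · rintro ⟨h1, h2⟩ j
      obtain rfl | rfl | rfl := fin3 j
      · exact h2
      · exact h1
      · trivial
    · intro h
      exact ⟨h 1, h 0⟩

variable {t : Fin 3} {c : Pt} {k : ℕ} {q : Pt} {i : ℤ × ℤ × ℤ × ℤ} {j : Fin 3}

theorem su_mem {x : ℤ} (h : Kj t c k q i j x) (hx : x ∈ iv k (co (tp t j) (ctr t k q i))) :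
    su t c i j x ∈ iv k (co j q) := by
  obtain rfl | rfl | rfl := fin3 t <;> obtain rfl | rfl | rfl := fin3 j
  · exact hx
  · exact h.2
  · exact h.2
  · exact h.2
  · exact hx
  · exact h.2
  · exact h.2
  · exact h.2
  · exact hx

theorem su_inj (hc : Nz c) {x y : ℤ} (hx : Kj t c k q i j x) (hy : Kj t c k q i j y)
    (e : su t c i j x = su t c i j y) : x = y := by
  obtain ⟨c1, c2, c3⟩ := hc
  obtain rfl | rfl | rfl := fin3 t <;> obtain rfl | rfl | rfl := fin3 j
  · exact e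
  · exact fr_inj c3 hx hy e
  · exact fr_inj c2 hx hy e
  · exact fr_inj c3 hx hy e
  · exact e
  · exact fr_inj c1 hx hy e
  · exact fr_inj c2 hx hy e
  · exact fr_inj c1 hx hy e
  · exact e

open Classical in
/-- **sums in one variable do not increase** -/
theorem sum_su_le (hc : Nz c) {f : ℤ → ℝ} (hf : ∀ x, 0 ≤ f x) :
    ∑ x ∈ iv k (co (tp t j) (ctr t k q i)), (if Kj t c k q i j x then f (su t c i j x) else 0) ≤
      ∑ x ∈ iv k (co j q), f x := by
  rw [← sum_filter]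
  have h1 : ∑ z ∈ (iv k (co (tp t j) (ctr t k q i))).filter (fun z => Kj t c k q i j z),
      f (su t c i j z) = ∑ x ∈ ((iv k (co (tp t j) (ctr t k q i))).filter
        (fun z => Kj t c k q i j z)).image (su t c i j), f x := by
    rw [sum_image]
    intro z hz z' hz' e
    exact su_inj hc (mem_filter.1 hz).2 (mem_filter.1 hz').2 e
  rw [h1]
  refine sum_le_sum_of_subset_of_nonneg ?_ fun x _ _ => hf x
  intro x hx
  obtain ⟨z, hz, rfl⟩ := mem_image.1 hx
  exact su_mem (mem_filter.1 hz).2 (mem_filter.1 hz).1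

/-! ### cut edge functions -/

section edges

variable {V : Type*} [AddCommMonoid V]

open Classical in
/-- the cut edge function of the edge `(j, j')`; it is the edge `(tp t j, tp t j')` of a piece -/
def cutE (t : Fin 3) (c : Pt) (k : ℕ) (q : Pt) (i : ℤ × ℤ × ℤ × ℤ) (j j' : Fin 3)
    (f : ℤ → ℤ → V) (x x' : ℤ) : V :=
  if Kj t c k q i j x ∧ Kj t c k q i j' x' then f (su t c i j x) (su t c i j' x') else 0

theorem cutE_swap (j j' : Fin 3) (f : ℤ → ℤ → V) (x x' : ℤ) :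
    cutE t c k q i j' j (fun a b => f b a) x' x = cutE t c k q i j j' f x x' := by
  unfold cutE
  by_cases h : Kj t c k q i j x ∧ Kj t c k q i j' x'
  · rw [if_pos h, if_pos h.symm]
  · rw [if_neg h, if_neg fun h' => h h'.symm]

/-- pointwise, a cut edge function is a value of the edge function or zero -/
theorem cutE_cases (j j' : Fin 3) (f : ℤ → ℤ → V) {x x' : ℤ}
    (hx : x ∈ iv k (co (tp t j) (ctr t k q i))) (hx' : x' ∈ iv k (co (tp t j') (ctr t k q i))) :
    cutE t c k q i j j' f x x' = 0 ∨ ∃ a ∈ iv k (co j q), ∃ b ∈ iv k (co j' q),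
      cutE t c k q i j j' f x x' = f a b := by
  unfold cutE
  by_cases h : Kj t c k q i j x ∧ Kj t c k q i j' x'
  · rw [if_pos h]
    exact Or.inr ⟨_, su_mem h.1 hx, _, su_mem h.2 hx', rfl⟩
  · rw [if_neg h]
    exact Or.inl rfl

variable {θ : V → ℝ}

open Classical in
theorem row_sum (h0 : θ 0 = 0) (j' : Fin 3) (f : ℤ → ℤ → V) (x : ℤ) (J : Finset ℤ) :
    ∑ x' ∈ J, θ (cutE t c k q i j j' f x x') = if Kj t c k q i j x then
      ∑ x' ∈ J, (if Kj t c k q i j' x' then θ (f (su t c i j x) (su t c i j' x')) else 0)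
        else 0 := by
  by_cases h : Kj t c k q i j x
  · rw [if_pos h]
    refine sum_congr rfl fun x' _ => ?_
    unfold cutE
    by_cases h' : Kj t c k q i j' x'
    · rw [if_pos ⟨h, h'⟩, if_pos h']
    · rw [if_neg fun h2 => h' h2.2, if_neg h', h0]
  · rw [if_neg h]
    refine sum_eq_zero fun x' _ => ?_
    unfold cutE
    rw [if_neg fun h2 => h h2.1, h0]

open Classical in
/-- **rows**: for every `x`, the sum over the second variable -/
theorem row_le (hc : Nz c) (h0 : θ 0 = 0) (hθ : ∀ w, 0 ≤ θ w) (j' : Fin 3) (f : ℤ → ℤ → V)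
    (x : ℤ) : ∑ x' ∈ iv k (co (tp t j') (ctr t k q i)), θ (cutE t c k q i j j' f x x') ≤
      if Kj t c k q i j x then ∑ x' ∈ iv k (co j' q), θ (f (su t c i j x) x') else 0 := by
  rw [row_sum h0]
  by_cases h : Kj t c k q i j x
  · rw [if_pos h, if_pos h]
    exact sum_su_le hc (f := fun y => θ (f (su t c i j x) y)) fun _ => hθ _
  · rw [if_neg h, if_neg h]

/-- a uniform bound of the rows is inherited -/
theorem row_le_of (hc : Nz c) (h0 : θ 0 = 0) (hθ : ∀ w, 0 ≤ θ w) (j' : Fin 3) (f : ℤ → ℤ → V)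
    {B : ℝ} (hB0 : 0 ≤ B) (hB : ∀ a ∈ iv k (co j q), ∑ b ∈ iv k (co j' q), θ (f a b) ≤ B) {x : ℤ}
    (hx : x ∈ iv k (co (tp t j) (ctr t k q i))) :
    ∑ x' ∈ iv k (co (tp t j') (ctr t k q i)), θ (cutE t c k q i j j' f x x') ≤ B := by
  classical
  refine (row_le hc h0 hθ j' f x).trans ?_
  by_cases h : Kj t c k q i j x
  · rw [if_pos h]
    exact hB _ (su_mem h hx)
  · rw [if_neg h]
    exact hB0

/-- a uniform bound of the columns is inherited -/
theorem col_le_of (hc : Nz c) (h0 : θ 0 = 0) (hθ : ∀ w, 0 ≤ θ w) (j' : Fin 3) (f : ℤ → ℤ → V)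
    {B : ℝ} (hB0 : 0 ≤ B) (hB : ∀ b ∈ iv k (co j' q), ∑ a ∈ iv k (co j q), θ (f a b) ≤ B) {x' : ℤ}
    (hx' : x' ∈ iv k (co (tp t j') (ctr t k q i))) :
    ∑ x ∈ iv k (co (tp t j) (ctr t k q i)), θ (cutE t c k q i j j' f x x') ≤ B := by
  have h := row_le_of (j := j') (x := x') hc h0 hθ j (fun a b => f b a) hB0 hB hx'
  refine le_trans (le_of_eq (sum_congr rfl fun x _ => ?_)) h
  rw [cutE_swap]

/-- **double sums do not increase** -/
theorem mass_le (hc : Nz c) (h0 : θ 0 = 0) (hθ : ∀ w, 0 ≤ θ w) (j' : Fin 3) (f : ℤ → ℤ → V) :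
    ∑ x ∈ iv k (co (tp t j) (ctr t k q i)), ∑ x' ∈ iv k (co (tp t j') (ctr t k q i)),
      θ (cutE t c k q i j j' f x x') ≤
        ∑ a ∈ iv k (co j q), ∑ b ∈ iv k (co j' q), θ (f a b) := by
  classical
  refine (sum_le_sum fun x _ => row_le hc h0 hθ j' f x).trans ?_
  exact sum_su_le hc (f := fun y => ∑ b ∈ iv k (co j' q), θ (f y b)) fun _ =>
    sum_nonneg fun _ _ => hθ _

theorem avg_row_le_of (hc : Nz c) (h0 : θ 0 = 0) (hθ : ∀ w, 0 ≤ θ w) (j' : Fin 3)
    (f : ℤ → ℤ → V) {B : ℝ} (hB0 : 0 ≤ B)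
    (hB : ∀ a ∈ iv k (co j q), (avg (iv k (co j' q)) fun b => θ (f a b)) ≤ B) {x : ℤ}
    (hx : x ∈ iv k (co (tp t j) (ctr t k q i))) :
    (avg (iv k (co (tp t j') (ctr t k q i))) fun x' => θ (cutE t c k q i j j' f x x')) ≤ B := by
  unfold avg at hB ⊢
  simp only [card_iv] at hB ⊢
  have hp : (0 : ℝ) < ((2 ^ k : ℕ) : ℝ) := by positivity
  rw [inv_mul_le_iff₀ hp]
  refine row_le_of hc h0 hθ j' f (by positivity) (fun a ha => ?_) hx
  have := hB a ha
  rwa [inv_mul_le_iff₀ hp] at this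

theorem avg_col_le_of (hc : Nz c) (h0 : θ 0 = 0) (hθ : ∀ w, 0 ≤ θ w) (j' : Fin 3)
    (f : ℤ → ℤ → V) {B : ℝ} (hB0 : 0 ≤ B)
    (hB : ∀ b ∈ iv k (co j' q), (avg (iv k (co j q)) fun a => θ (f a b)) ≤ B) {x' : ℤ}
    (hx' : x' ∈ iv k (co (tp t j') (ctr t k q i))) :
    (avg (iv k (co (tp t j) (ctr t k q i))) fun x => θ (cutE t c k q i j j' f x x')) ≤ B := by
  unfold avg at hB ⊢
  simp only [card_iv] at hB ⊢
  have hp : (0 : ℝ) < ((2 ^ k : ℕ) : ℝ) := by positivity
  rw [inv_mul_le_iff₀ hp]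
  refine col_le_of hc h0 hθ j' f (by positivity) (fun a ha => ?_) hx'
  have := hB a ha
  rwa [inv_mul_le_iff₀ hp] at this

theorem avg_mass_le (hc : Nz c) (h0 : θ 0 = 0) (hθ : ∀ w, 0 ≤ θ w) (j' : Fin 3)
    (f : ℤ → ℤ → V) :
    (avg (iv k (co (tp t j) (ctr t k q i))) fun x =>
      avg (iv k (co (tp t j') (ctr t k q i))) fun x' => θ (cutE t c k q i j j' f x x')) ≤
      avg (iv k (co j q)) fun a => avg (iv k (co j' q)) fun b => θ (f a b) := by
  unfold avg
  simp only [card_iv]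
  rw [← mul_sum, ← mul_sum]
  exact mul_le_mul_of_nonneg_left (mul_le_mul_of_nonneg_left (mass_le hc h0 hθ j' f)
    (by positivity)) (by positivity)

end edges

/-! ### centre atoms -/

section centre

variable {V : Type*} [NormedAddCommGroup V] [InnerProductSpace ℝ V]

/-- **a centre atom**, label vertex `l`, gauge on `(m, n)` -/
def cenf (l m n : Fin 3) (g : ℤ → ℤ → ℝ) (u v : ℤ → ℤ → V) (y : Pt) : ℝ :=
  g (co m y) (co n y) * inner ℝ (u (co l y) (co m y)) (v (co l y) (co n y))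

/-- the three positions are distinct -/
def Dis (l m n : Fin 3) : Prop := l ≠ m ∧ l ≠ n ∧ m ≠ n

instance (l m n : Fin 3) : Decidable (Dis l m n) := by unfold Dis; infer_instance

theorem Dis.cover {l m n : Fin 3} (h : Dis l m n) (j : Fin 3) : j = l ∨ j = m ∨ j = n := by
  revert l m n j; decide

theorem Dis.tp {l m n : Fin 3} (h : Dis l m n) (t : Fin 3) :
    Dis (tp t l) (H639.tp t m) (H639.tp t n) := by
  revert l m n t; decide

/-- **A piece of a centre atom is a centre atom at the exchanged positions.** -/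
theorem cutP_cenf {l m n : Fin 3} (h : Dis l m n) (t : Fin 3) (c : Pt) (k : ℕ) (q : Pt)
    (i : ℤ × ℤ × ℤ × ℤ) (g : ℤ → ℤ → ℝ) (u v : ℤ → ℤ → V) (z : Pt) :
    cutP t c k q i (cenf l m n g u v) z =
      cenf (tp t l) (tp t m) (tp t n) (cutE t c k q i m n g) (cutE t c k q i l m u)
        (cutE t c k q i l n v) z := by
  unfold cutP
  by_cases hK : KP t c k q i z
  · rw [if_pos hK]
    have hj := (KP_iff t c k q i z).1 hK
    unfold cenf cutE
    rw [if_pos ⟨hj m, hj n⟩, if_pos ⟨hj l, hj m⟩, if_pos ⟨hj l, hj n⟩, co_sb, co_sb, co_sb]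
  · rw [if_neg hK]
    have hj : ∃ j, ¬ Kj t c k q i j (co (tp t j) z) := by
      by_contra hc
      push Not at hc
      exact hK ((KP_iff t c k q i z).2 hc)
    obtain ⟨j, hj⟩ := hj
    unfold cenf cutE
    obtain rfl | rfl | rfl := h.cover j
    · rw [if_neg (c := Kj t c k q i j (co (tp t j) z) ∧ Kj t c k q i m (co (tp t m) z))
        fun h2 => hj h2.1, inner_zero_left, mul_zero]
    · rw [if_neg (c := Kj t c k q i j (co (tp t j) z) ∧ Kj t c k q i n (co (tp t n) z))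
        fun h2 => hj h2.1, zero_mul]
    · rw [if_neg (c := Kj t c k q i m (co (tp t m) z) ∧ Kj t c k q i j (co (tp t j) z))
        fun h2 => hj h2.2, zero_mul]

/-- the push-forward of a function on a cube -/
def pfw (c : Pt) (k : ℕ) (q : Pt) (w : Pt → ℝ) (s : ℤ) : ℝ :=
  ∑ y ∈ cube3 k q, if el c y = s then w y else 0

/-- **The vertices of a centre atom may be permuted.** -/
theorem pfw_cenf (hc : Nz c) {l m n : Fin 3} (h : Dis l m n) (t : Fin 3) (k : ℕ) (q : Pt)
    (g : ℤ → ℤ → ℝ) (u v : ℤ → ℤ → V) :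
    pfw c k q (cenf l m n g u v) = ∑ i ∈ IxP t c k q, pfw c k (ctr t k q i)
      (cenf (tp t l) (tp t m) (tp t n) (cutE t c k q i m n g) (cutE t c k q i l m u)
        (cutE t c k q i l n v)) := by
  funext s
  rw [Finset.sum_apply]
  unfold pfw
  rw [pf_perm hc t k q (cenf l m n g u v) s]
  refine sum_congr rfl fun i _ => sum_congr rfl fun z _ => ?_
  rw [cutP_cenf h]

/-- one exchange brings the end `m` of the edge `u` to any wanted position -/
theorem exists_tp {l m n : Fin 3} (h : Dis l m n) (p : Fin 3) :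
    p = m ∨ ∃ t, tp t m = p := by
  revert l m n p; decide

end centre

end

end Vale.Agent.P141.H639
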