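import Vale.Agent.P141.H639.CostCen
import Vale.Agent.P141.H650.Spec.CE1

/-!
# P141, CE: the price of the centre atoms in the costs of the level from the price on one box

`cenSt_of_ce1 : CE1St → CenSt`.
-/

namespace Vale.Agent.P141.H639

open Finset Vale.Agent.P141.PL Vale.Agent.P141.H48
open Vale.Agent.P141.PL (Pt fc)
open Vale.Agent.P141.PL.H95 (gr)
open Vale.Agent.P141.H347.Gs (Ex e2 e2_pos kap cwG)
open Vale.Agent.P141.H736 (cost)
open Vale.Agent.P141.H650 (CE1St CenSt)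

noncomputable section

open scoped Classical

theorem e2_neg_one_rpow (x : ℝ) (j : ℕ) : e2 (-1) j ^ x = e2 (-x) j := by
  unfold e2
  rw [← Real.rpow_mul two_pos.le]
  congr 1
  ring

theorem e2_neg_one_le (j : ℕ) : e2 (-1) j ≤ 1 := by
  have h := H347.Gs.e2_le (show (-1 : ℝ) ≤ 0 by norm_num) j
  have h0 : e2 0 j = 1 := by
    unfold e2
    rw [zero_mul, Real.rpow_zero]
  exact h.trans h0.le

/-- **The costs of the level from CE1.** -/
theorem cenSt_of_ce1 (H : CE1St) : CenSt := by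
  obtain ⟨gam, c1, hg, hc1, H⟩ := H
  refine ⟨gam, min c1 1, hg, lt_min hc1 one_pos, fun c hc0 hcc Kc L e0 hKc hL he0 => ?_⟩
  set T0 : ℝ := H437.TT with hT0
  have hT : CmpSt 7 T0 := H437.cmpT
  have hT1 : 1 ≤ T0 := by
    rw [hT0]
    unfold H437.TT
    norm_num
  set e1 : ℝ := 1 + Kc + Kc ^ 2 with he1
  have he1' : 1 ≤ e1 := by rw [he1]; nlinarith [sq_nonneg Kc]
  have hTe : 1 ≤ T0 ^ 2 * e1 := one_le_mul_of_one_le_of_one_le (one_le_pow₀ hT1) he1'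
  obtain ⟨C, hC, H⟩ := H c hc0 (hcc.trans (min_le_left _ _)) (T0 * Kc) (T0 ^ 2 * e1) 52 L e0
    (mul_pos (by linarith) hKc) hTe (by norm_num) hL he0
  refine ⟨8 * (1521 ^ 2 * (8 * (C * √(T0 ^ 2 * e1)))), by positivity, ?_⟩
  intro e heK hec σ r j k x q l m n hd V _ _ _ h p g u v hh hp hcen
  set t : ℝ := e2 (-1) j with ht
  have ht0 : 0 < t := e2_pos _ _
  have ht1 : t ≤ 1 := e2_neg_one_le j
  set X : ℝ := C * (t ^ (1 + gam) * (√h * (p ^ 2 * √p)) * √(T0 ^ 2 * e1) * 8 ^ k) with hX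
  have hX0 : 0 ≤ X := by positivity
  have htc : (e.mp j).t = Kc * t ^ (1 - c) := by
    show e.K * e2 (-(1 - e.c)) j = _
    rw [heK, hec, ht, e2_neg_one_rpow]
  have htc1 : t ^ (1 - c) ≤ 1 :=
    Real.rpow_le_one ht0.le ht1 (by have := hcc.trans (min_le_right c1 1); linarith)
  have htc0 : 0 < t ^ (1 - c) := Real.rpow_pos_of_pos ht0 _
  have hE : (e.mp j).E ≤ e1 := by
    show e.K ≤ e1
    rw [heK, he1]
    nlinarith [sq_nonneg Kc]
  have hte : (e.mp j).t ^ 2 ≤ e1 := by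
    rw [htc, mul_pow, he1]
    have h1 : (t ^ (1 - c)) ^ 2 ≤ 1 := pow_le_one₀ htc0.le htc1
    nlinarith [sq_nonneg Kc, mul_le_mul_of_nonneg_left h1 (sq_nonneg Kc)]
  have hKp : L * e2 (-(2 - c)) j * (h * p) = L * t ^ (2 - c) * (h * p) := by
    rw [ht, e2_neg_one_rpow]
  have hKp0 : 0 ≤ L * t ^ (2 - c) * (h * p) := by positivity
  rw [hKp] at hcen
  -- the box cost
  have hB : CeB k (T0 * (e.mp j).t) (T0 ^ 2 * e1) X
      (CenC k (PCen h p) (QCen (V := V) h p e0 (L * t ^ (2 - c) * (h * p)))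
        (RCen h p e0 (L * t ^ (2 - c) * (h * p))) 0 1 2) := by
    rintro n' hn' F1 F2 F3 h1 h2 h3 o ho y f ⟨g', u', v', rfl, ha, hb, hc'⟩
    have e1' : T0 * (e.mp j).t = T0 * Kc * t ^ (1 - c) := by rw [htc]; ring
    rw [e1'] at h1 h3
    exact H t ht0 ht1 n' _ F1 F2 F3 h1 h3 h2 o ho k hn' y V h p g' u' v' hh hp
      (cen_iff.2 ⟨ha, hb, hc'⟩)
  obtain ⟨h1, h2, h3⟩ := cen_iff.1 hcen
  have key : ∀ a : Fin 4 × Bool, cost (((e.mp j).cw σ r).κ a) (((e.mp j).cw σ r).o a) r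
      (pfw (fc r) k q (cenf l m n g u v)) k ((gr 7 σ).cube k x) ≤ 1521 ^ 2 * (8 * X) := fun a =>
    cost_cen (clo_pcen hh hp) (clo_qcen hh hp he0.le hKp0) (clo_rcen hh hp he0.le hKp0) hT1 hT hE
      hte hX0 hB a.1 r (((e.mp j).cw σ r).ho a) hd ⟨g, u, v, rfl, h1, h2, h3⟩ x
  have e2' : ((e.mp j).cw σ r).cst (pfw (fc r) k q (cenf l m n g u v)) k
      ((gr 7 σ).cube k x) ≤ ∑ _a : Fin 4 × Bool, 1521 ^ 2 * (8 * X) := by
    refine sum_le_sum fun a _ => ?_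
    have : ((e.mp j).cw σ r).nrm a = 1 := rfl
    rw [this, div_one]
    exact key a
  refine e2'.trans (le_of_eq ?_)
  rw [sum_const, card_univ, Fintype.card_prod, Fintype.card_fin, Fintype.card_bool, nsmul_eq_mul,
    hX, ht, e2_neg_one_rpow]
  push_cast
  ring

end

end Vale.Agent.P141.H639
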