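import Mathlib

/-!
# P141, line (A): numbers of the closed stage, hub `x₃`

* `eps_sq`, `m_le_sqrt` : `ε = m ^ (1 / 4)`;
* `lm_le` : `t ^ (-d) s 8 ^ K ≤ lg ^ p t ^ (-(b (c + d))) s 8 ^ K`;
* `num_line` : the sum of the numbers of one slot at `ε = m ^ (1 / 4)`;
* `cap_line` : the cap number.
-/

namespace Vale.Agent.P141.H639.NumL

noncomputable section

theorem eps_sq {m : ℝ} (hm : 0 ≤ m) : (m ^ (1 / 4 : ℝ)) ^ 2 = √m := by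
  rw [← Real.rpow_natCast, ← Real.rpow_mul hm, Real.sqrt_eq_rpow]
  norm_num

theorem m_le_sqrt {m : ℝ} (hm : 0 ≤ m) (hm1 : m ≤ 1) : m ≤ √m := by
  have h1 : √m * √m = m := Real.mul_self_sqrt hm
  have h2 : √m ≤ 1 := by
    rw [Real.sqrt_le_left zero_le_one, one_pow]
    exact hm1
  have h3 : 0 ≤ √m := Real.sqrt_nonneg m
  nlinarith

theorem m_div_sqrt {m : ℝ} (hm : 0 < m) : m / √m = √m := by
  have h1 : √m * √m = m := Real.mul_self_sqrt hm.le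
  have h2 : 0 < √m := Real.sqrt_pos.2 hm
  rw [div_eq_iff h2.ne', h1]

theorem lg_one {κ r t : ℝ} (hκ : 1 ≤ κ) (hr : 1 ≤ r) (ht : 0 < t) (ht1 : t ≤ 1) :
    1 ≤ 1 + Real.log κ + Real.log (r / t) := by
  have e1 := Real.log_nonneg hκ
  have e2 : 0 ≤ Real.log (r / t) := Real.log_nonneg (by
    rw [le_div_iff₀ ht]
    linarith)
  linarith

theorem lm_le {κ r t c d s : ℝ} (hκ : 1 ≤ κ) (hr : 1 ≤ r) (ht : 0 < t) (ht1 : t ≤ 1) (hc : 0 ≤ c)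
    (hd : 0 ≤ d) (hs : 0 ≤ s) (p : ℕ) {b : ℝ} (hb : 1 ≤ b) (K : ℕ) :
    t ^ (-d) * s * 8 ^ K ≤
      (1 + Real.log κ + Real.log (r / t)) ^ p * (t ^ (-(b * (c + d))) * s * 8 ^ K) := by
  have h1 : t ^ (-d) ≤ t ^ (-(b * (c + d))) :=
    Real.rpow_le_rpow_of_exponent_ge ht ht1 (by nlinarith)
  have h2 : 1 ≤ (1 + Real.log κ + Real.log (r / t)) ^ p := one_le_pow₀ (lg_one hκ hr ht ht1)
  have h3 : 0 ≤ t ^ (-(b * (c + d))) * s * 8 ^ K := by positivity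
  calc t ^ (-d) * s * 8 ^ K ≤ t ^ (-(b * (c + d))) * s * 8 ^ K := by gcongr
    _ ≤ _ := le_mul_of_one_le_left h3 h2

/-- **The number line.** -/
theorem num_line {m ez N0 A P B μ M : ℝ} (hm : 0 < m) (hm1 : m ≤ 1) (hez : 0 < ez) (hN : 0 ≤ N0)
    (hA : 0 ≤ A) (hP : 0 ≤ P) (hB : 0 ≤ B) (hμM : μ ≤ M) (hM : 0 ≤ M) :
    A * ((1 + P) * (N0 * (ez * m)) / ez + N0 * (ez * m) / (ez * (m ^ (1 / 4 : ℝ)) ^ 2) +
      (m ^ (1 / 4 : ℝ)) ^ 2 * (B * μ)) ≤ A * (2 + P + B) * ((N0 + M) * √m) := by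
  have h0 : 0 < √m := Real.sqrt_pos.2 hm
  have e1 : (1 + P) * (N0 * (ez * m)) / ez = (1 + P) * N0 * m := by
    field_simp
  have e2 : N0 * (ez * m) / (ez * (m ^ (1 / 4 : ℝ)) ^ 2) = N0 * √m := by
    rw [eps_sq hm.le, mul_left_comm N0 ez m, mul_div_mul_left _ _ hez.ne', mul_div_assoc,
      m_div_sqrt hm]
  rw [e1, e2, eps_sq hm.le, mul_assoc A]
  refine mul_le_mul_of_nonneg_left ?_ hA
  have h1 := m_le_sqrt hm.le hm1
  have h2 : (1 + P) * N0 * m ≤ (1 + P) * N0 * √m := mul_le_mul_of_nonneg_left h1 (by positivity)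
  have h3 : √m * (B * μ) ≤ √m * (B * M) := by gcongr
  have h4 : 0 ≤ N0 * √m := by positivity
  have h5 : 0 ≤ M * √m := by positivity
  have h6 : 0 ≤ P * (M * √m) := by positivity
  have h7 : 0 ≤ B * (N0 * √m) := by positivity
  nlinarith

/-- **The cap line.** -/
theorem cap_line {t r s k3 d κ ε A X : ℝ} (ht : 0 < t) (ht1 : t ≤ 1) (hr : 1 ≤ r) (hs : 0 ≤ s)
    (hk : 0 ≤ k3) (hd1 : d ≤ 2) (hκ : 1 ≤ κ) (hε0 : 0 ≤ ε) (hε : ε ≤ 1)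
    (hA : 0 ≤ A) (hX : A ≤ X) (hX3 : 3 ≤ X) :
    A * ((ε ^ 2 + κ ^ 2) * √(t ^ (-d) * s)) ≤
      (X * κ * (r / t)) ^ (⌈X⌉₊) * (4 * (t ^ (1 - k3) * s ^ (1 / 4 : ℝ) * r ^ k3) ^ 2) := by
  have hr0 : 0 < r := by linarith
  have hX0 : 0 ≤ X := by linarith
  have hρ : 1 ≤ r / t := by
    rw [le_div_iff₀ ht]
    linarith
  have hρ0 : 0 < r / t := by linarith
  have e1 : √(t ^ (-d) * s) = t ^ (-(d / 2)) * √s := by
    rw [Real.sqrt_mul (by positivity), Real.sqrt_eq_rpow (t ^ (-d)), ← Real.rpow_mul ht.le]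
    congr 2
    ring
  have e2 : (t ^ (1 - k3) * s ^ (1 / 4 : ℝ) * r ^ k3) ^ 2 =
      t ^ (2 - 2 * k3) * √s * r ^ (2 * k3) := by
    have a1 : (t ^ (1 - k3)) ^ 2 = t ^ (2 - 2 * k3) := by
      rw [← Real.rpow_natCast, ← Real.rpow_mul ht.le]
      congr 1
      push_cast
      ring
    have a2 : (s ^ (1 / 4 : ℝ)) ^ 2 = √s := by
      rw [← Real.rpow_natCast, ← Real.rpow_mul hs, Real.sqrt_eq_rpow]
      norm_num
    have a3 : (r ^ k3) ^ 2 = r ^ (2 * k3) := by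
      rw [← Real.rpow_natCast, ← Real.rpow_mul hr0.le]
      congr 1
      push_cast
      ring
    rw [mul_pow, mul_pow, a1, a2, a3]
  rw [e1, e2]
  have hB1 : 1 ≤ X * κ * (r / t) := by
    have : 1 ≤ X * κ := by nlinarith
    nlinarith
  have h3 : (X * κ * (r / t)) ^ 3 ≤ (X * κ * (r / t)) ^ (⌈X⌉₊) := by
    refine pow_le_pow_right₀ hB1 ?_
    have : (3 : ℝ) ≤ (⌈X⌉₊ : ℝ) := hX3.trans (Nat.le_ceil X)
    exact_mod_cast this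
  -- powers of t
  have t1 : t ^ (-(d / 2)) ≤ (r / t) ^ 3 * t ^ (2 - 2 * k3) * r ^ (2 * k3) := by
    have a1 : t ^ (-(d / 2)) ≤ t ^ (-(1 : ℝ)) :=
      Real.rpow_le_rpow_of_exponent_ge ht ht1 (by linarith)
    have a2 : (1 : ℝ) ≤ r ^ (2 * k3) := Real.one_le_rpow hr (by linarith)
    have a3 : t ^ (2 : ℝ) ≤ t ^ (2 - 2 * k3) :=
      Real.rpow_le_rpow_of_exponent_ge ht ht1 (by linarith)
    have a4 : (r / t) ^ 3 * t ^ (2 : ℝ) = r ^ 3 * t ^ (-(1 : ℝ)) := by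
      rw [Real.rpow_neg ht.le, Real.rpow_one, Real.rpow_two]
      field_simp
    have a5 : (1 : ℝ) ≤ r ^ 3 := one_le_pow₀ hr
    have a6 : 0 < t ^ (-(1 : ℝ)) := Real.rpow_pos_of_pos ht _
    calc t ^ (-(d / 2)) ≤ t ^ (-(1 : ℝ)) := a1
      _ ≤ r ^ 3 * t ^ (-(1 : ℝ)) := le_mul_of_one_le_left a6.le a5
      _ = (r / t) ^ 3 * t ^ (2 : ℝ) := a4.symm
      _ ≤ (r / t) ^ 3 * t ^ (2 - 2 * k3) := by gcongr
      _ ≤ (r / t) ^ 3 * t ^ (2 - 2 * k3) * r ^ (2 * k3) :=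
        le_mul_of_one_le_right (by positivity) a2
  have h4 : ε ^ 2 + κ ^ 2 ≤ 2 * κ ^ 2 := by nlinarith
  have h5 : A * (2 * κ ^ 2) ≤ 4 * (X * κ) ^ 3 := by
    have c1 : κ ^ 2 ≤ κ ^ 3 := pow_le_pow_right₀ hκ (by norm_num)
    have c2 : X ≤ X ^ 3 := by nlinarith [mul_nonneg hX0 hX0]
    calc A * (2 * κ ^ 2) ≤ X ^ 3 * (4 * κ ^ 3) := by
          have : A ≤ X ^ 3 := hX.trans c2
          have : 2 * κ ^ 2 ≤ 4 * κ ^ 3 := by nlinarith [pow_nonneg (zero_le_one.trans hκ) 3]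
          gcongr
      _ = _ := by ring
  have hs0 : 0 ≤ √s := Real.sqrt_nonneg _
  calc A * ((ε ^ 2 + κ ^ 2) * (t ^ (-(d / 2)) * √s)) ≤
        A * ((2 * κ ^ 2) * (((r / t) ^ 3 * t ^ (2 - 2 * k3) * r ^ (2 * k3)) * √s)) := by gcongr
    _ = A * (2 * κ ^ 2) * ((r / t) ^ 3 * (t ^ (2 - 2 * k3) * √s * r ^ (2 * k3))) := by ring
    _ ≤ 4 * (X * κ) ^ 3 * ((r / t) ^ 3 * (t ^ (2 - 2 * k3) * √s * r ^ (2 * k3))) := by gcongr
    _ = (X * κ * (r / t)) ^ 3 * (4 * (t ^ (2 - 2 * k3) * √s * r ^ (2 * k3))) := by ring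
    _ ≤ _ := by gcongr

end

end Vale.Agent.P141.H639.NumL
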