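import Vale.Agent.P141.H277.PhiS
import Vale.Agent.P141.H639.NumL0

/-!
# P141, line (A): the number line and the cap line of the closed stage, letters of `H277.PhiS`

* `lm_MM` : `Lm s 8 ^ K ≤ MM`;
* `num_MM` : the sum of the numbers of one slot at `ε = m ^ (1 / 4)` is `≤ X (N0 + MM) √m`;
* `cap_HH` : `A (ε ^ 2 + κ ^ 2) √(Lm s) ≤ HH tS ^ 2`.
-/

namespace Vale.Agent.P141.H639.NumL

open Vale.Agent.P141.H277.Phi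

noncomputable section

variable {q : H401.Num} {s r κ : ℝ}

theorem tS_sq (s r : ℝ) : tS q s r ^ 2 = 4 * q.th s r ^ 2 := by
  unfold tS
  exact Real.sq_sqrt (by positivity)

theorem lm_MM (ht : 0 < q.t) (ht1 : q.t ≤ 1) (hc : 0 ≤ q.c) (hd : 0 ≤ q.d) (hs : 0 ≤ s)
    (hr : 1 ≤ r) (hκ : 1 ≤ κ) (K : ℕ) : q.Lm * s * 8 ^ K ≤ MM q s r κ K := by
  unfold MM lgS H401.Num.Lm
  exact lm_le hκ hr ht ht1 hc hd hs 64 (by norm_num : (1 : ℝ) ≤ 64) K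

theorem s_MM (ht : 0 < q.t) (ht1 : q.t ≤ 1) (hc : 0 ≤ q.c) (hd : 0 ≤ q.d) (hs : 0 ≤ s)
    (hr : 1 ≤ r) (hκ : 1 ≤ κ) (K : ℕ) : s * 8 ^ K ≤ MM q s r κ K := by
  refine le_trans ?_ (lm_MM ht ht1 hc hd hs hr hκ K)
  have h1 : (1 : ℝ) ≤ q.Lm := by
    unfold H401.Num.Lm
    rw [← Real.rpow_zero q.t]
    exact Real.rpow_le_rpow_of_exponent_ge ht ht1 (by linarith)
  have h2 : 0 ≤ s * 8 ^ K := by positivity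
  calc s * 8 ^ K ≤ q.Lm * (s * 8 ^ K) := le_mul_of_one_le_left h2 h1
    _ = _ := by ring

/-- **The number line.** -/
theorem num_MM {m ez N0 A P B : ℝ} {K : ℕ} (ht : 0 < q.t) (ht1 : q.t ≤ 1) (hc : 0 ≤ q.c)
    (hd : 0 ≤ q.d) (hs : 0 ≤ s) (hr : 1 ≤ r) (hκ : 1 ≤ κ) (hm : 0 < m) (hm1 : m ≤ 1)
    (hez : 0 < ez) (hN : 0 ≤ N0) (hA : 0 ≤ A) (hP : 0 ≤ P) (hB : 0 ≤ B) :
    A * ((1 + P) * (N0 * (ez * m)) / ez + N0 * (ez * m) / (ez * (m ^ (1 / 4 : ℝ)) ^ 2) +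
      (m ^ (1 / 4 : ℝ)) ^ 2 * (B * (q.Lm * s * 8 ^ K))) ≤
      A * (2 + P + B) * ((N0 + MM q s r κ K) * √m) := by
  have h1 := lm_MM ht ht1 hc hd hs hr hκ K
  have h0 : 0 ≤ q.Lm * s * 8 ^ K := by
    have : 0 ≤ q.Lm := by
      unfold H401.Num.Lm
      positivity
    positivity
  exact num_line hm hm1 hez hN hA hP hB h1 (h0.trans h1)

/-- **The cap line.** -/
theorem cap_HH {ε A X : ℝ} (ht : 0 < q.t) (ht1 : q.t ≤ 1) (hr : 1 ≤ r) (hs : 0 ≤ s)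
    (hk : 0 ≤ q.k3) (hd1 : q.d ≤ 2) (hκ : 1 ≤ κ) (hε0 : 0 ≤ ε) (hε : ε ≤ 1) (hA : 0 ≤ A)
    (hX : A ≤ X) (hX3 : 3 ≤ X) :
    A * ((ε ^ 2 + κ ^ 2) * √(q.Lm * s)) ≤ HH q r κ X * tS q s r ^ 2 := by
  rw [tS_sq]
  unfold HH H401.Num.Lm H401.Num.th
  exact cap_line ht ht1 hr hs hk hd1 hκ hε0 hε hA hX hX3

/-- the cap line at `ε = m ^ (1 / 4)`, constant `64` -/
theorem cap_HH64 {m X : ℝ} (ht : 0 < q.t) (ht1 : q.t ≤ 1) (hr : 1 ≤ r) (hs : 0 ≤ s)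
    (hk : 0 ≤ q.k3) (hd1 : q.d ≤ 2) (hκ : 1 ≤ κ) (hm : 0 ≤ m) (hm1 : m ≤ 1) (hX : 64 ≤ X) :
    64 * ((m ^ (1 / 4 : ℝ)) ^ 2 + κ ^ 2) * √(q.Lm * s) ≤ HH q r κ X * tS q s r ^ 2 := by
  have h := cap_HH (q := q) (s := s) (ε := m ^ (1 / 4 : ℝ)) ht ht1 hr hs hk hd1 hκ
    (Real.rpow_nonneg hm _) (Real.rpow_le_one hm hm1 (by norm_num)) (A := 64) (by norm_num) hX
    (by linarith)
  linarith

end

end Vale.Agent.P141.H639.NumL
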