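import Vale.Agent.P141.H639.NumL0

/-!
# P141, line (A): the crude number of the hub `x₁`

`num_C` : `10 ^ 4 (ε + κ) ^ 2 ε ^ (-2) (D / 2 t ^ (-d) + D / 2 lam1 / lam) s 8 ^ K m ≤ X MM HH`.
-/

namespace Vale.Agent.P141.H639.NumL

noncomputable section

set_option linter.unusedVariables false

/-- the number with any `M` above the masses -/
theorem num_C0 {t d e0 r s κ m D X M : ℝ} {K : ℕ} (ht : 0 < t) (ht1 : t ≤ 1) (hr : 1 ≤ r)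
    (hs : 0 < s) (he0 : 0 < e0) (hd : 0 ≤ d) (hκ : 1 ≤ κ)
    (hm : 0 < m) (hm1 : m ≤ 1) (hD : 0 ≤ D) (hX : 40000 * D + 12 ≤ X)
    (e1 : t ^ (-d) * s * 8 ^ K ≤ M) :
    10 ^ 4 * ((m ^ (1 / 4 : ℝ) + κ) ^ 2 * ((m ^ (1 / 4 : ℝ)) ^ 2)⁻¹) *
      (D / 2 * (t ^ (-d) * s * 8 ^ K) +
        D / 2 * (t ^ (-8 : ℝ) * √s * r ^ (8 : ℝ)) * (t ^ (2 - e0) * √s * r ^ e0)⁻¹ * s * 8 ^ K) *
      m ≤ X * M * (X * κ * (r / t)) ^ ⌈X⌉₊ := by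
  have hr0 : 0 < r := by linarith
  have hρ : 1 ≤ r / t := by
    rw [le_div_iff₀ ht]
    linarith
  have hρ0 : 0 < r / t := by linarith
  have hX0 : 0 ≤ X := by linarith
  have hX1 : 1 ≤ X := by linarith
  have hM0 : 0 ≤ M := le_trans (by positivity) e1
  have e2 : s * 8 ^ K ≤ M := by
    have h2 : (1 : ℝ) ≤ t ^ (-d) := by
      rw [← Real.rpow_zero t]
      exact Real.rpow_le_rpow_of_exponent_ge ht ht1 (by linarith)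
    have h3 : s * 8 ^ K ≤ t ^ (-d) * s * 8 ^ K := by
      have : 0 ≤ s * 8 ^ K := by positivity
      calc s * 8 ^ K ≤ t ^ (-d) * (s * 8 ^ K) := le_mul_of_one_le_left this h2
        _ = _ := by ring
    exact h3.trans e1
  -- the ratio of the levels
  have e3 : (t ^ (-8 : ℝ) * √s * r ^ (8 : ℝ)) * (t ^ (2 - e0) * √s * r ^ e0)⁻¹ ≤
      (r / t) ^ 10 := by
    have hS : 0 < √s := Real.sqrt_pos.2 hs
    have a1 : 0 < t ^ (2 - e0) := Real.rpow_pos_of_pos ht _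
    have a2 : 0 < r ^ e0 := Real.rpow_pos_of_pos hr0 _
    have a3 : t ^ (2 : ℝ) ≤ t ^ (2 - e0) :=
      Real.rpow_le_rpow_of_exponent_ge ht ht1 (by linarith)
    have a4 : (1 : ℝ) ≤ r ^ e0 := Real.one_le_rpow hr he0.le
    have a5 : t ^ (-8 : ℝ) = (t ^ 8)⁻¹ := by
      rw [show (-8 : ℝ) = -((8 : ℕ) : ℝ) by norm_num, Real.rpow_neg ht.le, Real.rpow_natCast]
    have a6 : r ^ (8 : ℝ) = r ^ 8 := by
      rw [show (8 : ℝ) = ((8 : ℕ) : ℝ) by norm_num, Real.rpow_natCast]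
    have a7 : t ^ (2 : ℝ) = t ^ 2 := Real.rpow_two t
    rw [← div_eq_mul_inv, div_le_iff₀ (by positivity)]
    have h8 : r ^ 8 ≤ r ^ 10 := pow_le_pow_right₀ hr (by norm_num)
    have h9 : (t ^ 8)⁻¹ * r ^ 8 ≤ (r / t) ^ 10 * t ^ 2 := by
      have : (r / t) ^ 10 * t ^ 2 = (t ^ 8)⁻¹ * r ^ 10 := by
        field_simp
      rw [this]
      gcongr
    calc t ^ (-8 : ℝ) * √s * r ^ (8 : ℝ) = (t ^ 8)⁻¹ * r ^ 8 * √s := by rw [a5, a6]; ring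
      _ ≤ (r / t) ^ 10 * t ^ 2 * √s := by gcongr
      _ ≤ (r / t) ^ 10 * t ^ (2 - e0) * √s := by rw [← a7]; gcongr
      _ ≤ (r / t) ^ 10 * t ^ (2 - e0) * √s * r ^ e0 :=
        le_mul_of_one_le_right (by positivity) a4
      _ = _ := by ring
  have e4 : D / 2 * (t ^ (-8 : ℝ) * √s * r ^ (8 : ℝ)) * (t ^ (2 - e0) * √s * r ^ e0)⁻¹ * s * 8 ^ K
      ≤ D / 2 * ((r / t) ^ 10 * M) := by
    have h1 : (t ^ (-8 : ℝ) * √s * r ^ (8 : ℝ)) * (t ^ (2 - e0) * √s * r ^ e0)⁻¹ * (s * 8 ^ K) ≤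
        (r / t) ^ 10 * M := mul_le_mul e3 e2 (by positivity) (by positivity)
    calc D / 2 * (t ^ (-8 : ℝ) * √s * r ^ (8 : ℝ)) * (t ^ (2 - e0) * √s * r ^ e0)⁻¹ * s * 8 ^ K
        = D / 2 * ((t ^ (-8 : ℝ) * √s * r ^ (8 : ℝ)) * (t ^ (2 - e0) * √s * r ^ e0)⁻¹ *
          (s * 8 ^ K)) := by ring
      _ ≤ _ := mul_le_mul_of_nonneg_left h1 (by linarith)
  have hρ10 : (1 : ℝ) ≤ (r / t) ^ 10 := one_le_pow₀ hρ
  have e5 : D / 2 * (t ^ (-d) * s * 8 ^ K) +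
        D / 2 * (t ^ (-8 : ℝ) * √s * r ^ (8 : ℝ)) * (t ^ (2 - e0) * √s * r ^ e0)⁻¹ * s * 8 ^ K ≤
      D * ((r / t) ^ 10 * M) := by
    have h1 : D / 2 * (t ^ (-d) * s * 8 ^ K) ≤ D / 2 * ((r / t) ^ 10 * M) := by
      refine mul_le_mul_of_nonneg_left (e1.trans ?_) (by linarith)
      exact le_mul_of_one_le_left hM0 hρ10
    linarith
  -- the factor of `m`
  have hε0 : 0 < m ^ (1 / 4 : ℝ) := Real.rpow_pos_of_pos hm _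
  have hε1 : m ^ (1 / 4 : ℝ) ≤ 1 := Real.rpow_le_one hm.le hm1 (by norm_num)
  have e6 : (m ^ (1 / 4 : ℝ) + κ) ^ 2 * ((m ^ (1 / 4 : ℝ)) ^ 2)⁻¹ * m ≤ 4 * κ ^ 2 := by
    have h1 : (m ^ (1 / 4 : ℝ) + κ) ^ 2 ≤ 4 * κ ^ 2 := by nlinarith
    have h2 : ((m ^ (1 / 4 : ℝ)) ^ 2)⁻¹ * m ≤ 1 := by
      rw [eps_sq hm.le, mul_comm, ← div_eq_mul_inv, m_div_sqrt hm,
        Real.sqrt_le_left zero_le_one, one_pow]
      exact hm1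
    have h3 : 0 ≤ ((m ^ (1 / 4 : ℝ)) ^ 2)⁻¹ * m := by positivity
    calc (m ^ (1 / 4 : ℝ) + κ) ^ 2 * ((m ^ (1 / 4 : ℝ)) ^ 2)⁻¹ * m
        = (m ^ (1 / 4 : ℝ) + κ) ^ 2 * (((m ^ (1 / 4 : ℝ)) ^ 2)⁻¹ * m) := by ring
      _ ≤ 4 * κ ^ 2 * 1 := mul_le_mul h1 h2 h3 (by positivity)
      _ = _ := by ring
  have h12 : κ ^ 2 * (r / t) ^ 10 ≤ (X * κ * (r / t)) ^ ⌈X⌉₊ := by
    have hκX : κ ≤ X * κ * (r / t) := by
      calc κ ≤ X * κ := le_mul_of_one_le_left (by linarith) hX1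
        _ ≤ X * κ * (r / t) := le_mul_of_one_le_right (by positivity) hρ
    have hρX : r / t ≤ X * κ * (r / t) := by
      refine le_mul_of_one_le_left hρ0.le ?_
      nlinarith
    have hB1 : 1 ≤ X * κ * (r / t) := hρ.trans hρX
    have h1 : (12 : ℕ) ≤ ⌈X⌉₊ := by
      have : (12 : ℝ) ≤ (⌈X⌉₊ : ℝ) := (by linarith : (12 : ℝ) ≤ X).trans (Nat.le_ceil X)
      exact_mod_cast this
    calc κ ^ 2 * (r / t) ^ 10 ≤ (X * κ * (r / t)) ^ 2 * (X * κ * (r / t)) ^ 10 := by gcongr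
      _ = (X * κ * (r / t)) ^ 12 := by ring
      _ ≤ _ := pow_le_pow_right₀ hB1 h1
  have hκ2 : 0 ≤ (m ^ (1 / 4 : ℝ) + κ) ^ 2 * ((m ^ (1 / 4 : ℝ)) ^ 2)⁻¹ * m := by positivity
  calc 10 ^ 4 * ((m ^ (1 / 4 : ℝ) + κ) ^ 2 * ((m ^ (1 / 4 : ℝ)) ^ 2)⁻¹) *
      (D / 2 * (t ^ (-d) * s * 8 ^ K) +
        D / 2 * (t ^ (-8 : ℝ) * √s * r ^ (8 : ℝ)) * (t ^ (2 - e0) * √s * r ^ e0)⁻¹ * s * 8 ^ K) * m
      = 10 ^ 4 * ((m ^ (1 / 4 : ℝ) + κ) ^ 2 * ((m ^ (1 / 4 : ℝ)) ^ 2)⁻¹ * m) *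
      (D / 2 * (t ^ (-d) * s * 8 ^ K) +
        D / 2 * (t ^ (-8 : ℝ) * √s * r ^ (8 : ℝ)) * (t ^ (2 - e0) * √s * r ^ e0)⁻¹ * s * 8 ^ K) :=
        by ring
    _ ≤ 10 ^ 4 * (4 * κ ^ 2) * (D * ((r / t) ^ 10 * M)) := by
        refine mul_le_mul (mul_le_mul_of_nonneg_left e6 (by norm_num)) e5 ?_ (by positivity)
        positivity
    _ = 40000 * D * M * (κ ^ 2 * (r / t) ^ 10) := by ring
    _ ≤ X * M * (X * κ * (r / t)) ^ ⌈X⌉₊ := by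
        refine mul_le_mul (mul_le_mul_of_nonneg_right (by linarith) hM0) h12 (by positivity)
          (by positivity)

/-- **The crude number of the hub `x₁`.** -/
theorem num_C {t c d e0 r s κ m D X : ℝ} {K : ℕ} (ht : 0 < t) (ht1 : t ≤ 1) (hr : 1 ≤ r)
    (hs : 0 < s) (he0 : 0 < e0) (he01 : e0 ≤ 1) (hc : 0 ≤ c) (hd : 0 ≤ d) (hκ : 1 ≤ κ)
    (hm : 0 < m) (hm1 : m ≤ 1) (hD : 0 ≤ D) (hX : 40000 * D + 12 ≤ X) :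
    10 ^ 4 * ((m ^ (1 / 4 : ℝ) + κ) ^ 2 * ((m ^ (1 / 4 : ℝ)) ^ 2)⁻¹) *
      (D / 2 * (t ^ (-d) * s * 8 ^ K) +
        D / 2 * (t ^ (-8 : ℝ) * √s * r ^ (8 : ℝ)) * (t ^ (2 - e0) * √s * r ^ e0)⁻¹ * s * 8 ^ K) *
      m ≤
      X * ((1 + Real.log κ + Real.log (r / t)) ^ 64 * (t ^ (-(64 * (c + d))) * s * 8 ^ K)) *
        (X * κ * (r / t)) ^ ⌈X⌉₊ :=
  num_C0 ht ht1 hr hs he0 hd hκ hm hm1 hD hX
    (lm_le hκ hr ht ht1 hc hd hs.le 64 (by norm_num : (1 : ℝ) ≤ 64) K)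

end

end Vale.Agent.P141.H639.NumL
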