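import Vale.Agent.P141.H639.PermV
import Vale.Agent.P141.H736.TfCost

/-!
# P141, line W: the cost of an atom is at most the cost of its exchanged pieces
-/

namespace Vale.Agent.P141.H639

open Finset
open Vale.Agent.P141.H315 Vale.Agent.P141.PL.H318
open Vale.Agent.P141.PL.H315 (cube3 Tri atm)
open Vale.Agent.P141.PL (Pt el)
open Vale.Agent.P141.H736 (Cls cost val vals Blw val_le_cost vals_nonempty val_sum_le cost_nonneg)

noncomputable section

open scoped Classical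

variable {g : Grid ℤ}

/-- the cost is subadditive in the function, finite sums -/
theorem cost_sum_le {ν : Type*} (κ : Fin 4 → Cls g) {o : ℤ} (ho : o = 1 ∨ o = -1) (r : Fin 4)
    (s : Finset ν) (ψ : ν → ℤ → ℝ) (k : ℕ) (x : ℤ) :
    cost κ o r (∑ a ∈ s, ψ a) k (g.cube k x) ≤ ∑ a ∈ s, cost κ o r (ψ a) k (g.cube k x) := by
  refine csSup_le (vals_nonempty κ o r _ k x) ?_
  rintro v ⟨𝒩, A, h1, h2, rfl⟩
  exact (val_sum_le s o r ψ 𝒩 A).trans (sum_le_sum fun a _ => val_le_cost κ ho r (ψ a) h1 h2)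

/-- a family of pieces, each with the same bound -/
theorem cost_sum_le_card {ν : Type*} (κ : Fin 4 → Cls g) {o : ℤ} (ho : o = 1 ∨ o = -1)
    (r : Fin 4) (s : Finset ν) (ψ : ν → ℤ → ℝ) (k : ℕ) (x : ℤ) {B : ℝ}
    (hB : ∀ a ∈ s, cost κ o r (ψ a) k (g.cube k x) ≤ B) :
    cost κ o r (∑ a ∈ s, ψ a) k (g.cube k x) ≤ s.card * B := by
  refine (cost_sum_le κ ho r s ψ k x).trans ?_
  rw [← nsmul_eq_mul]
  exact sum_le_card_nsmul _ _ _ hB

theorem pfw_perm {c : Pt} (hc : Nz c) (t : Fin 3) (k : ℕ) (q : Pt) (w : Pt → ℝ) :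
    pfw c k q w = ∑ i ∈ IxP t c k q, pfw c k (ctr t k q i) (cutP t c k q i w) := by
  funext s
  rw [Finset.sum_apply]
  exact pf_perm hc t k q w s

theorem a1_perm' {c : Pt} (hc : Nz c) (t : Fin 3) (k : ℕ) (q : Pt) (u : Tri) :
    a1 c k (q, u) = ∑ i ∈ IxP t c k q, a1 c k (ctr t k q i, triP t c k q i u) := by
  funext s
  rw [Finset.sum_apply]
  exact a1_perm hc t k q u s

/-- **any function on a cube**: the cost is at most the sum of the costs of the pieces -/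
theorem cost_pfw_perm (κ : Fin 4 → Cls g) {o : ℤ} (ho : o = 1 ∨ o = -1) (r : Fin 4) {c : Pt}
    (hc : Nz c) (t : Fin 3) (k : ℕ) (q : Pt) (w : Pt → ℝ) (l : ℕ) (x : ℤ) :
    cost κ o r (pfw c k q w) l (g.cube l x) ≤
      ∑ i ∈ IxP t c k q, cost κ o r (pfw c k (ctr t k q i) (cutP t c k q i w)) l (g.cube l x) := by
  rw [pfw_perm hc t k q w]
  exact cost_sum_le κ ho r _ _ l x

/-- **scalar atoms** -/
theorem cost_a1_perm (κ : Fin 4 → Cls g) {o : ℤ} (ho : o = 1 ∨ o = -1) (r : Fin 4) {c : Pt}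
    (hc : Nz c) (t : Fin 3) (k : ℕ) (q : Pt) (u : Tri) (l : ℕ) (x : ℤ) :
    cost κ o r (a1 c k (q, u)) l (g.cube l x) ≤
      ∑ i ∈ IxP t c k q, cost κ o r (a1 c k (ctr t k q i, triP t c k q i u)) l (g.cube l x) := by
  rw [a1_perm' hc t k q u]
  exact cost_sum_le κ ho r _ _ l x

section centre

variable {V : Type*} [NormedAddCommGroup V] [InnerProductSpace ℝ V]

/-- **centre atoms**: the label vertex `l`, the ends `m` and `n` may be exchanged -/
theorem cost_cenf_perm (κ : Fin 4 → Cls g) {o : ℤ} (ho : o = 1 ∨ o = -1) (r : Fin 4) {c : Pt}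
    (hc : Nz c) {l m n : Fin 3} (h : Dis l m n) (t : Fin 3) (k : ℕ) (q : Pt) (γ : ℤ → ℤ → ℝ)
    (u v : ℤ → ℤ → V) (k' : ℕ) (x : ℤ) {B : ℝ}
    (hB : ∀ i ∈ IxP t c k q, cost κ o r (pfw c k (ctr t k q i)
      (cenf (tp t l) (tp t m) (tp t n) (cutE t c k q i m n γ) (cutE t c k q i l m u)
        (cutE t c k q i l n v))) k' (g.cube k' x) ≤ B) :
    cost κ o r (pfw c k q (cenf l m n γ u v)) k' (g.cube k' x) ≤ (IxP t c k q).card * B := by
  rw [pfw_cenf hc h t k q γ u v]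
  exact cost_sum_le_card κ ho r _ _ k' x hB

end centre

end

end Vale.Agent.P141.H639
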