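import Vale.Agent.P141.H639.TrC

/-!
# P141: the class of centre atoms

`Sub I J f I' J' f'`: `f'` on `I' × J'` is a part of `f` on `I × J` (one injective substitution in
each variable, zero elsewhere).  `Clo P`: the property `P` of edge functions is inherited by
parts.  `CenC K P Q R l m n x f`: `f` is a centre atom at the positions `l m n` with `P` for the
gauge and `Q`, `R` for the two vector edges on the squares of the cube of scale `K` of `x`.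

* `clsF_cen`: closed under translation and cut;
* `cen_rp`: in the coordinates of a role;
* `cen_perm`: the pieces of an exchange;
* `cen_node`: the cost at the nodes of a centre atom in ANY positions, from the boxes with centre
  atoms in ONE position.
-/

namespace Vale.Agent.P141.H639

open Finset Vale.Agent.P141.PL Vale.Agent.P141.PL.H560
open Vale.Agent.P141.PL.H321 (t12 t23)
open Vale.Agent.P141.PL.H315 (cube3 avg)

noncomputable section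

/-! ### parts -/

section sub

variable {V : Type*} [AddCommMonoid V]

/-- `h'` on `J'` is a part of `h` on `J` -/
def Sub1 (J : Finset ℤ) (h : ℤ → V) (J' : Finset ℤ) (h' : ℤ → V) : Prop :=
  ∃ (K2 : ℤ → Prop) (s2 : ℤ → ℤ), (∀ b ∈ J', K2 b → s2 b ∈ J) ∧
    (∀ b ∈ J', ∀ b' ∈ J', K2 b → K2 b' → s2 b = s2 b' → b = b') ∧
    ∀ b ∈ J', (K2 b → h' b = h (s2 b)) ∧ (¬ K2 b → h' b = 0)

/-- `f'` on `I' × J'` is a part of `f` on `I × J` -/
def Sub (I J : Finset ℤ) (f : ℤ → ℤ → V) (I' J' : Finset ℤ) (f' : ℤ → ℤ → V) : Prop :=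
  ∃ (K1 K2 : ℤ → Prop) (s1 s2 : ℤ → ℤ), (∀ a ∈ I', K1 a → s1 a ∈ I) ∧
    (∀ a ∈ I', ∀ a' ∈ I', K1 a → K1 a' → s1 a = s1 a' → a = a') ∧
    (∀ b ∈ J', K2 b → s2 b ∈ J) ∧
    (∀ b ∈ J', ∀ b' ∈ J', K2 b → K2 b' → s2 b = s2 b' → b = b') ∧
    ∀ a ∈ I', ∀ b ∈ J', (K1 a ∧ K2 b → f' a b = f (s1 a) (s2 b)) ∧
      (¬ (K1 a ∧ K2 b) → f' a b = 0)

/-- a property of edge functions which is inherited by parts -/
def Clo (P : Finset ℤ → Finset ℤ → (ℤ → ℤ → V) → Prop) : Prop :=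
  ∀ (I J : Finset ℤ) (f : ℤ → ℤ → V) (I' J' : Finset ℤ) (f' : ℤ → ℤ → V), I'.card = I.card →
    J'.card = J.card → Sub I J f I' J' f' → P I J f → P I' J' f'

theorem Clo.and {P P' : Finset ℤ → Finset ℤ → (ℤ → ℤ → V) → Prop} (h : Clo P) (h' : Clo P') :
    Clo fun I J f => P I J f ∧ P' I J f :=
  fun _ _ _ _ _ _ hI hJ hs hp => ⟨h _ _ _ _ _ _ hI hJ hs hp.1, h' _ _ _ _ _ _ hI hJ hs hp.2⟩

theorem Clo.all {ι : Sort*} {P : ι → Finset ℤ → Finset ℤ → (ℤ → ℤ → V) → Prop}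
    (h : ∀ i, Clo (P i)) : Clo fun I J f => ∀ i, P i I J f :=
  fun _ _ _ _ _ _ hI hJ hs hp i => h i _ _ _ _ _ _ hI hJ hs (hp i)

theorem Clo.true : Clo (V := V) fun _ _ _ => True := fun _ _ _ _ _ _ _ _ _ _ => trivial

theorem Sub.swap {I J : Finset ℤ} {f : ℤ → ℤ → V} {I' J' : Finset ℤ} {f' : ℤ → ℤ → V}
    (h : Sub I J f I' J' f') : Sub J I (fun b a => f a b) J' I' fun b a => f' a b := by
  obtain ⟨K1, K2, s1, s2, h1, h2, h3, h4, h5⟩ := h
  exact ⟨K2, K1, s2, s1, h3, h4, h1, h2, fun b hb a ha =>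
    ⟨fun hK => (h5 a ha b hb).1 hK.symm, fun hK => (h5 a ha b hb).2 fun hK' => hK hK'.symm⟩⟩

/-- the property in the exchanged variables -/
theorem Clo.swap {P : Finset ℤ → Finset ℤ → (ℤ → ℤ → V) → Prop} (h : Clo P) :
    Clo fun I J f => P J I fun b a => f a b :=
  fun _ _ _ _ _ _ hI hJ hs hp => h _ _ _ _ _ _ hJ hI hs.swap hp

/-- a row of a part is zero or a part of a row -/
theorem Sub.row {I J : Finset ℤ} {f : ℤ → ℤ → V} {I' J' : Finset ℤ} {f' : ℤ → ℤ → V}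
    (h : Sub I J f I' J' f') {a : ℤ} (ha : a ∈ I') :
    (∀ b ∈ J', f' a b = 0) ∨ ∃ a0 ∈ I, Sub1 J (f a0) J' (f' a) := by
  obtain ⟨K1, K2, s1, s2, h1, h2, h3, h4, h5⟩ := h
  by_cases hK : K1 a
  · refine Or.inr ⟨s1 a, h1 a ha hK, K2, s2, h3, h4, fun b hb => ?_⟩
    exact ⟨fun hK2 => (h5 a ha b hb).1 ⟨hK, hK2⟩, fun hK2 => (h5 a ha b hb).2 fun h => hK2 h.2⟩
  · exact Or.inl fun b hb => (h5 a ha b hb).2 fun h => hK h.1

open Classical in
theorem Sub1.sum_le {θ : V → ℝ} (h0 : θ 0 = 0) (hθ : ∀ w, 0 ≤ θ w) {J : Finset ℤ} {h : ℤ → V}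
    {J' : Finset ℤ} {h' : ℤ → V} (hs : Sub1 J h J' h') :
    ∑ b ∈ J', θ (h' b) ≤ ∑ b ∈ J, θ (h b) := by
  obtain ⟨K2, s2, h1, h2, h3⟩ := hs
  have e1 : ∑ b ∈ J', θ (h' b) = ∑ b ∈ J'.filter K2, θ (h (s2 b)) := by
    rw [sum_filter]
    refine sum_congr rfl fun b hb => ?_
    by_cases hK : K2 b
    · rw [if_pos hK, (h3 b hb).1 hK]
    · rw [if_neg hK, (h3 b hb).2 hK, h0]
  rw [e1, ← sum_image (f := fun y => θ (h y)) (g := s2)]
  · refine sum_le_sum_of_subset_of_nonneg ?_ fun _ _ _ => hθ _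
    intro y hy
    obtain ⟨b, hb, rfl⟩ := mem_image.1 hy
    exact h1 b (mem_filter.1 hb).1 (mem_filter.1 hb).2
  · intro b hb b' hb' e
    exact h2 b (mem_filter.1 hb).1 b' (mem_filter.1 hb').1 (mem_filter.1 hb).2
      (mem_filter.1 hb').2 e

theorem Sub1.avg_le {θ : V → ℝ} (h0 : θ 0 = 0) (hθ : ∀ w, 0 ≤ θ w) {J : Finset ℤ} {h : ℤ → V}
    {J' : Finset ℤ} {h' : ℤ → V} (hc : J'.card = J.card) (hs : Sub1 J h J' h') :
    (avg J' fun b => θ (h' b)) ≤ avg J fun b => θ (h b) := by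
  unfold avg
  rw [hc]
  exact mul_le_mul_of_nonneg_left (hs.sum_le h0 hθ) (by positivity)

theorem avg_zero' {θ : V → ℝ} (h0 : θ 0 = 0) {J' : Finset ℤ} {h' : ℤ → V}
    (hz : ∀ b ∈ J', h' b = 0) : (avg J' fun b => θ (h' b)) = 0 := by
  unfold avg
  rw [sum_eq_zero fun b hb => by rw [hz b hb, h0], mul_zero]

/-- pointwise bounds -/
theorem clo_pt {θ : V → ℝ} {B : ℝ} (h0 : θ 0 ≤ B) :
    Clo fun I J f => ∀ a ∈ I, ∀ b ∈ J, θ (f a b) ≤ B := by
  intro I J f I' J' f' _ _ hs hp a ha b hb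
  obtain ⟨K1, K2, s1, s2, h1, -, h3, -, h5⟩ := hs
  by_cases hK : K1 a ∧ K2 b
  · rw [(h5 a ha b hb).1 hK]
    exact hp _ (h1 a ha hK.1) _ (h3 b hb hK.2)
  · rw [(h5 a ha b hb).2 hK]
    exact h0

/-- bounds of the rows -/
theorem clo_row {θ : V → ℝ} (h0 : θ 0 = 0) (hθ : ∀ w, 0 ≤ θ w) {B : ℝ} (hB : 0 ≤ B) :
    Clo fun I J f => ∀ a ∈ I, (avg J fun b => θ (f a b)) ≤ B := by
  intro I J f I' J' f' _ hJ hs hp a ha
  rcases hs.row ha with hz | ⟨a0, ha0, h1⟩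
  · rw [avg_zero' h0 hz]; exact hB
  · exact (h1.avg_le h0 hθ hJ).trans (hp a0 ha0)

/-- bounds of the columns -/
theorem clo_col {θ : V → ℝ} (h0 : θ 0 = 0) (hθ : ∀ w, 0 ≤ θ w) {B : ℝ} (hB : 0 ≤ B) :
    Clo fun I J f => ∀ b ∈ J, (avg I fun a => θ (f a b)) ≤ B :=
  (clo_row h0 hθ hB).swap

open Classical in
theorem Sub.sum_le {θ : V → ℝ} (h0 : θ 0 = 0) (hθ : ∀ w, 0 ≤ θ w) {I J : Finset ℤ}
    {f : ℤ → ℤ → V} {I' J' : Finset ℤ} {f' : ℤ → ℤ → V} (h : Sub I J f I' J' f') :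
    ∑ a ∈ I', ∑ b ∈ J', θ (f' a b) ≤ ∑ a ∈ I, ∑ b ∈ J, θ (f a b) := by
  obtain ⟨K1, K2, s1, s2, h1, h2, h3, h4, h5⟩ := h
  have e1 : ∀ a ∈ I', ∑ b ∈ J', θ (f' a b) ≤ if K1 a then ∑ b ∈ J, θ (f (s1 a) b) else 0 := by
    intro a ha
    by_cases hK : K1 a
    · rw [if_pos hK]
      refine Sub1.sum_le h0 hθ ⟨K2, s2, h3, h4, fun b hb => ?_⟩
      exact ⟨fun hK2 => (h5 a ha b hb).1 ⟨hK, hK2⟩, fun hK2 => (h5 a ha b hb).2 fun h => hK2 h.2⟩
    · rw [if_neg hK]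
      exact le_of_eq (sum_eq_zero fun b hb => by
        rw [(h5 a ha b hb).2 fun h => hK h.1, h0])
  refine (sum_le_sum e1).trans ?_
  rw [← sum_filter, ← sum_image (f := fun y => ∑ b ∈ J, θ (f y b)) (g := s1)]
  · refine sum_le_sum_of_subset_of_nonneg ?_ fun _ _ _ => sum_nonneg fun _ _ => hθ _
    intro y hy
    obtain ⟨a, ha, rfl⟩ := mem_image.1 hy
    exact h1 a (mem_filter.1 ha).1 (mem_filter.1 ha).2
  · intro a ha a' ha' e
    exact h2 a (mem_filter.1 ha).1 a' (mem_filter.1 ha').1 (mem_filter.1 ha).2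
      (mem_filter.1 ha').2 e

/-- bounds of the masses -/
theorem clo_mass {θ : V → ℝ} (h0 : θ 0 = 0) (hθ : ∀ w, 0 ≤ θ w) (B : ℝ) :
    Clo fun I J f => (avg I fun a => avg J fun b => θ (f a b)) ≤ B := by
  intro I J f I' J' f' hI hJ hs hp
  refine le_trans ?_ hp
  unfold avg
  rw [hI, hJ, ← mul_sum, ← mul_sum]
  exact mul_le_mul_of_nonneg_left (mul_le_mul_of_nonneg_left (hs.sum_le h0 hθ) (by positivity))
    (by positivity)

/-- bounds of the masses, average over the square -/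
theorem clo_mass' {θ : V → ℝ} (h0 : θ 0 = 0) (hθ : ∀ w, 0 ≤ θ w) (B : ℝ) :
    Clo fun I J f => (avg (I ×ˢ J) fun p => θ (f p.1 p.2)) ≤ B := by
  intro I J f I' J' f' hI hJ hs hp
  refine le_trans ?_ hp
  unfold avg
  rw [card_product, card_product, hI, hJ, sum_product, sum_product]
  exact mul_le_mul_of_nonneg_left (hs.sum_le h0 hθ) (by positivity)

/-- bounds of the values in a set containing zero -/
theorem clo_mem {S : Set V} (h0 : (0 : V) ∈ S) : Clo fun I J f => ∀ a ∈ I, ∀ b ∈ J, f a b ∈ S := by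
  intro I J f I' J' f' _ _ hs hp a ha b hb
  obtain ⟨K1, K2, s1, s2, h1, -, h3, -, h5⟩ := hs
  by_cases hK : K1 a ∧ K2 b
  · rw [(h5 a ha b hb).1 hK]
    exact hp _ (h1 a ha hK.1) _ (h3 b hb hK.2)
  · rw [(h5 a ha b hb).2 hK]
    exact h0

end sub

/-! ### the three operations are parts -/

section ops

variable {V : Type*} [AddCommMonoid V]

/-- the cut edge function of an exchange is a part -/
theorem sub_cutE {t : Fin 3} {c : Pt} (hc : Nz c) {k : ℕ} {q : Pt} {i : ℤ × ℤ × ℤ × ℤ}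
    (j j' : Fin 3) (f : ℤ → ℤ → V) :
    Sub (PL.H315.iv k (co j q)) (PL.H315.iv k (co j' q)) f
      (PL.H315.iv k (co (tp t j) (ctr t k q i))) (PL.H315.iv k (co (tp t j') (ctr t k q i)))
      (cutE t c k q i j j' f) := by
  refine ⟨Kj t c k q i j, Kj t c k q i j', su t c i j, su t c i j', fun a ha h => su_mem h ha,
    fun a _ a' _ h h' e => su_inj hc h h' e, fun a ha h => su_mem h ha,
    fun a _ a' _ h h' e => su_inj hc h h' e, fun a _ b _ => ⟨fun h => if_pos h, fun h => if_neg h⟩⟩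

open Classical in
/-- translation and cut of an edge function -/
def shE (I J : Finset ℤ) (s s' : ℤ) (f : ℤ → ℤ → V) (a b : ℤ) : V :=
  if a + s ∈ I ∧ b + s' ∈ J then f (a + s) (b + s') else 0

theorem sub_shE (I J I' J' : Finset ℤ) (s s' : ℤ) (f : ℤ → ℤ → V) :
    Sub I J f I' J' (shE I J s s' f) := by
  refine ⟨fun a => a + s ∈ I, fun b => b + s' ∈ J, fun a => a + s, fun b => b + s',
    fun _ _ h => h, fun _ _ _ _ _ _ e => add_right_cancel e, fun _ _ h => h,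
    fun _ _ _ _ _ _ e => add_right_cancel e, fun a _ b _ => ⟨fun h => if_pos h, fun h => if_neg h⟩⟩

end ops

/-! ### the class -/

section cen

variable {V : Type*} [NormedAddCommGroup V] [InnerProductSpace ℝ V]

/-- **The class of centre atoms** at the positions `l m n`. -/
def CenC (K : ℕ) (P : Finset ℤ → Finset ℤ → (ℤ → ℤ → ℝ) → Prop)
    (Q R : Finset ℤ → Finset ℤ → (ℤ → ℤ → V) → Prop) (l m n : Fin 3) (x : Pt) (f : Pt → ℝ) :
    Prop :=
  ∃ (g : ℤ → ℤ → ℝ) (u v : ℤ → ℤ → V), f = cenf l m n g u v ∧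
    P (PL.H315.iv K (co m x)) (PL.H315.iv K (co n x)) g ∧
    Q (PL.H315.iv K (co l x)) (PL.H315.iv K (co m x)) u ∧
    R (PL.H315.iv K (co l x)) (PL.H315.iv K (co n x)) v

variable {K : ℕ} {P : Finset ℤ → Finset ℤ → (ℤ → ℤ → ℝ) → Prop}
  {Q R : Finset ℤ → Finset ℤ → (ℤ → ℤ → V) → Prop}

/-- the components of the shift -/
def sv (c : LF) (q : ℤ × ℤ) (j : Fin 3) : ℤ := match j with
  | 0 => h1 c q.1 q.2
  | 1 => q.1
  | 2 => q.2

theorem co_sh (c : LF) (q : ℤ × ℤ) (j : Fin 3) (p : Pt) :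
    co j (sh c q.1 q.2 p) = co j p + sv c q j := by
  obtain rfl | rfl | rfl := fin3 j <;> rfl

theorem mem_cb_iff {K : ℕ} {x y : Pt} : y ∈ cb K (cx K x) ↔
    ∀ j : Fin 3, co j y ∈ PL.H315.iv K (co j x) := by
  have h : cb K (cx K x) = cube3 K x := rfl
  rw [h, PL.H315.mem_cube3]
  constructor
  · rintro ⟨h0, h1, h2⟩ j
    obtain rfl | rfl | rfl := fin3 j
    · exact h0
    · exact h1
    · exact h2
  · intro h
    exact ⟨h 0, h 1, h 2⟩

/-- translation and cut of a centre atom -/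
theorem cut_cenf {l m n : Fin 3} (h : Dis l m n) (c : LF) (K : ℕ) (x : Pt) (q : ℤ × ℤ)
    (g : ℤ → ℤ → ℝ) (u v : ℤ → ℤ → V) (p : Pt) :
    cut K (cx K x) (cenf l m n g u v) (sh c q.1 q.2 p) = cenf l m n
      (shE (PL.H315.iv K (co m x)) (PL.H315.iv K (co n x)) (sv c q m) (sv c q n) g)
      (shE (PL.H315.iv K (co l x)) (PL.H315.iv K (co m x)) (sv c q l) (sv c q m) u)
      (shE (PL.H315.iv K (co l x)) (PL.H315.iv K (co n x)) (sv c q l) (sv c q n) v) p := by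
  by_cases hm : sh c q.1 q.2 p ∈ cb K (cx K x)
  · rw [cut_of_mem hm]
    have hj := mem_cb_iff.1 hm
    simp only [co_sh] at hj
    unfold cenf shE
    rw [if_pos ⟨hj m, hj n⟩, if_pos ⟨hj l, hj m⟩, if_pos ⟨hj l, hj n⟩, co_sh, co_sh, co_sh]
  · rw [cut_of_not_mem hm]
    have hj : ∃ j, ¬ co j p + sv c q j ∈ PL.H315.iv K (co j x) := by
      by_contra hc
      push Not at hc
      refine hm (mem_cb_iff.2 fun j => ?_)
      rw [co_sh]
      exact hc j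
    obtain ⟨j, hj⟩ := hj
    unfold cenf shE
    obtain rfl | rfl | rfl := h.cover j
    · rw [if_neg (c := co j p + sv c q j ∈ PL.H315.iv K (co j x) ∧
        co m p + sv c q m ∈ PL.H315.iv K (co m x)) fun h2 => hj h2.1, inner_zero_left, mul_zero]
    · rw [if_neg (c := co j p + sv c q j ∈ PL.H315.iv K (co j x) ∧
        co n p + sv c q n ∈ PL.H315.iv K (co n x)) fun h2 => hj h2.1, zero_mul]
    · rw [if_neg (c := co m p + sv c q m ∈ PL.H315.iv K (co m x) ∧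
        co j p + sv c q j ∈ PL.H315.iv K (co j x)) fun h2 => hj h2.2, zero_mul]

/-- **the class is closed under translation and cut** -/
theorem clsF_cen (hP : Clo P) (hQ : Clo Q) (hR : Clo R) {l m n : Fin 3} (h : Dis l m n) :
    ClsF K (CenC K P Q R l m n) := by
  rintro c x y f q ⟨g, u, v, rfl, h1, h2, h3⟩
  refine ⟨_, _, _, funext fun p => cut_cenf h c K x q g u v p, ?_, ?_, ?_⟩
  · exact hP _ _ _ _ _ _ (by rw [PL.H315.card_iv, PL.H315.card_iv])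
      (by rw [PL.H315.card_iv, PL.H315.card_iv]) (sub_shE _ _ _ _ _ _ _) h1
  · exact hQ _ _ _ _ _ _ (by rw [PL.H315.card_iv, PL.H315.card_iv])
      (by rw [PL.H315.card_iv, PL.H315.card_iv]) (sub_shE _ _ _ _ _ _ _) h2
  · exact hR _ _ _ _ _ _ (by rw [PL.H315.card_iv, PL.H315.card_iv])
      (by rw [PL.H315.card_iv, PL.H315.card_iv]) (sub_shE _ _ _ _ _ _ _) h3

/-- **the pieces of an exchange are in the class of the exchanged positions** -/
theorem cen_perm (hP : Clo P) (hQ : Clo Q) (hR : Clo R) {l m n : Fin 3} (h : Dis l m n)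
    (t : Fin 3) {c : Pt} (hc : Nz c) {q : Pt} {f : Pt → ℝ} (hf : CenC K P Q R l m n q f)
    (i : ℤ × ℤ × ℤ × ℤ) :
    CenC K P Q R (tp t l) (tp t m) (tp t n) (ctr t K q i) (cutP t c K q i f) := by
  obtain ⟨g, u, v, rfl, h1, h2, h3⟩ := hf
  refine ⟨_, _, _, funext fun p => cutP_cenf h t c K q i g u v p, ?_, ?_, ?_⟩
  · exact hP _ _ _ _ _ _ (by rw [PL.H315.card_iv, PL.H315.card_iv])
      (by rw [PL.H315.card_iv, PL.H315.card_iv]) (sub_cutE hc _ _ _) h1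
  · exact hQ _ _ _ _ _ _ (by rw [PL.H315.card_iv, PL.H315.card_iv])
      (by rw [PL.H315.card_iv, PL.H315.card_iv]) (sub_cutE hc _ _ _) h2
  · exact hR _ _ _ _ _ _ (by rw [PL.H315.card_iv, PL.H315.card_iv])
      (by rw [PL.H315.card_iv, PL.H315.card_iv]) (sub_cutE hc _ _ _) h3

/-- the positions in the coordinates of the role `i` -/
def rpos (i : Fin 4) (j : Fin 3) : Fin 3 := match i with
  | 0 => j
  | 1 => j
  | 2 => tp 2 j
  | 3 => tp 2 (tp 0 j)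

theorem rpos_inj : ∀ (i : Fin 4) (j j' : Fin 3), rpos i j = rpos i j' → j = j' := by decide

theorem Dis.rpos {l m n : Fin 3} (h : Dis l m n) (i : Fin 4) :
    Dis (rpos i l) (H639.rpos i m) (H639.rpos i n) := by
  revert l m n i; decide

theorem co_rpi (i : Fin 4) (j : Fin 3) (q : Pt) : co j (rpi i q) = co (rpos i j) q := by
  obtain rfl | rfl | rfl | rfl := fin4 i <;> obtain rfl | rfl | rfl := fin3 j <;> rfl

theorem co_rp (i : Fin 4) (j : Fin 3) (p : Pt) : co (rpos i j) (rp i p) = co j p := by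
  obtain rfl | rfl | rfl | rfl := fin4 i <;> obtain rfl | rfl | rfl := fin3 j <;> rfl

/-- **a centre atom in the coordinates of the role `i`** -/
theorem cen_rp (i : Fin 4) {l m n : Fin 3} {p : Pt} {f : Pt → ℝ}
    (hf : CenC K P Q R l m n p f) :
    CenC K P Q R (rpos i l) (rpos i m) (rpos i n) (rp i p) fun q => f (rpi i q) := by
  obtain ⟨g, u, v, rfl, h1, h2, h3⟩ := hf
  refine ⟨g, u, v, funext fun q => ?_, ?_, ?_, ?_⟩
  · unfold cenf
    simp only [co_rpi]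
  · rw [co_rp, co_rp]; exact h1
  · rw [co_rp, co_rp]; exact h2
  · rw [co_rp, co_rp]; exact h3

/-! ### the cost at the nodes -/

theorem nz_fc (i : Fin 4) : Nz (fc i) := by
  obtain rfl | rfl | rfl | rfl := fin4 i <;> refine ⟨?_, ?_, ?_⟩ <;> decide

theorem abs_fc (i : Fin 4) : |(fc i).1| ≤ (3 : ℕ) ∧ |(fc i).2.1| ≤ (3 : ℕ) ∧
    |(fc i).2.2| ≤ (3 : ℕ) := by
  obtain rfl | rfl | rfl | rfl := fin4 i <;> refine ⟨?_, ?_, ?_⟩ <;> decide

theorem card_IxP_fc (i : Fin 4) (t : Fin 3) (k : ℕ) (q : Pt) : (IxP t (fc i) k q).card ≤ 1521 :=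
  card_IxP_le (abs_fc i) t k q

/-- the sum over the nodes is subadditive -/
theorem nodes_sum_le {ν : Type*} (s : Finset ν) (o : ℤ) (h : ℕ → ℤ → Fin 4 → ℤ → ℝ) (i : Fin 4)
    (ψ : ν → ℤ → ℝ) (𝒩 : Finset (ℕ × ℤ)) :
    ∑ N ∈ 𝒩, |PL.H855.wN o (Function.update (h N.1 N.2) i (∑ a ∈ s, ψ a)) N| ≤
      ∑ a ∈ s, ∑ N ∈ 𝒩, |PL.H855.wN o (Function.update (h N.1 N.2) i (ψ a)) N| := by
  rw [sum_comm (s := s)]
  refine sum_le_sum fun N _ => ?_
  have e : PL.H855.wN o (Function.update (h N.1 N.2) i (∑ a ∈ s, ψ a)) N =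
      ∑ a ∈ s, PL.H855.wN o (Function.update (h N.1 N.2) i (ψ a)) N :=
    map_sum (H572.wNL o (h N.1 N.2) i N) ψ s
  rw [e]
  exact abs_sum_le_sum_abs _ _

/-- one position, no exchange -/
theorem cen_node0 (hP : Clo P) (hQ : Clo Q) (hR : Clo R) {o : ℤ} {X : ℝ} (i : Fin 4)
    {l m n : Fin 3} (hd : Dis l m n) (h : ℕ → ℤ → Fin 4 → ℤ → ℝ)
    (hcost : CostCR i o K X (CenC K P Q R (rpos i l) (rpos i m) (rpos i n)) h) {p : Pt}
    {f : Pt → ℝ} (hf : CenC K P Q R l m n p f) (𝒩 : Finset (ℕ × ℤ))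
    (h𝒩 : ∀ N ∈ 𝒩, 1 ≤ N.1 ∧ N.1 ≤ K) :
    ∑ N ∈ 𝒩, |PL.H855.wN o (Function.update (h N.1 N.2) i (pfw (fc i) K p f)) N| ≤ 8 * X :=
  wN_cls (clsF_cen hP hQ hR (hd.rpos i)) h i hcost (cen_rp i hf) 𝒩 h𝒩

/-- the pieces of one exchange -/
theorem cen_node_step (hP : Clo P) (hQ : Clo Q) (hR : Clo R) {o : ℤ} {X : ℝ} (hX : 0 ≤ X)
    (i : Fin 4) {l m n : Fin 3} (hd : Dis l m n) (t : Fin 3) (h : ℕ → ℤ → Fin 4 → ℤ → ℝ)
    (𝒩 : Finset (ℕ × ℤ))
    (hcost : ∀ (p : Pt) (f : Pt → ℝ), CenC K P Q R (tp t l) (tp t m) (tp t n) p f →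
      ∑ N ∈ 𝒩, |PL.H855.wN o (Function.update (h N.1 N.2) i (pfw (fc i) K p f)) N| ≤ X)
    {p : Pt} {f : Pt → ℝ} (hf : CenC K P Q R l m n p f) :
    ∑ N ∈ 𝒩, |PL.H855.wN o (Function.update (h N.1 N.2) i (pfw (fc i) K p f)) N| ≤ 1521 * X := by
  rw [pfw_perm (nz_fc i) t K p f]
  refine (nodes_sum_le _ o h i _ 𝒩).trans ?_
  refine (sum_le_card_nsmul _ _ X fun a _ =>
    hcost _ _ (cen_perm hP hQ hR hd t (nz_fc i) hf a)).trans ?_
  rw [nsmul_eq_mul]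
  refine mul_le_mul_of_nonneg_right ?_ hX
  exact_mod_cast card_IxP_fc i t K p

/-- at most two exchanges bring the positions to any wanted ones -/
theorem exists_tp2 {l m n l' m' n' : Fin 3} (h : Dis l m n) (h' : Dis l' m' n') :
    (∃ t, tp t l = l' ∧ tp t m = m' ∧ tp t n = n') ∨
      ∃ t s, tp s (tp t l) = l' ∧ tp s (tp t m) = m' ∧ tp s (tp t n) = n' := by
  revert l m n l' m' n'; decide

/-- **The cost at the nodes of a centre atom in ANY positions**, from the cost on the boxes (572's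
letters: `cosF`, companions of the role `i`) of the centre atoms in ONE position `(l', m', n')` of
the coordinates of the role. -/
theorem cen_node (hP : Clo P) (hQ : Clo Q) (hR : Clo R) {o : ℤ} {X : ℝ} (hX : 0 ≤ X) (i : Fin 4)
    {l m n : Fin 3} (hd : Dis l m n) {l' m' n' : Fin 3} (hd' : Dis l' m' n')
    (h : ℕ → ℤ → Fin 4 → ℤ → ℝ) (hcost : CostCR i o K X (CenC K P Q R l' m' n') h) {p : Pt}
    {f : Pt → ℝ} (hf : CenC K P Q R l m n p f) (𝒩 : Finset (ℕ × ℤ))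
    (h𝒩 : ∀ N ∈ 𝒩, 1 ≤ N.1 ∧ N.1 ≤ K) :
    ∑ N ∈ 𝒩, |PL.H855.wN o (Function.update (h N.1 N.2) i (pfw (fc i) K p f)) N| ≤
      1521 ^ 2 * (8 * X) := by
  obtain ⟨l0, m0, n0, e1, e2, e3⟩ : ∃ l0 m0 n0, rpos i l0 = l' ∧ rpos i m0 = m' ∧
      rpos i n0 = n' := by
    have : ∀ (i : Fin 4) (a : Fin 3), ∃ b, rpos i b = a := by decide
    obtain ⟨l0, e1⟩ := this i l'
    obtain ⟨m0, e2⟩ := this i m'
    obtain ⟨n0, e3⟩ := this i n'
    exact ⟨l0, m0, n0, e1, e2, e3⟩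
  have hd0 : Dis l0 m0 n0 := by
    refine ⟨fun e => hd'.1 ?_, fun e => hd'.2.1 ?_, fun e => hd'.2.2 ?_⟩
    · rw [← e1, ← e2, e]
    · rw [← e1, ← e3, e]
    · rw [← e2, ← e3, e]
  subst e1 e2 e3
  have hbase : ∀ (p : Pt) (f : Pt → ℝ), CenC K P Q R l0 m0 n0 p f →
      ∑ N ∈ 𝒩, |PL.H855.wN o (Function.update (h N.1 N.2) i (pfw (fc i) K p f)) N| ≤ 8 * X :=
    fun p f hf => cen_node0 hP hQ hR i hd0 h hcost hf 𝒩 h𝒩
  have h8 : (0 : ℝ) ≤ 8 * X := by positivity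
  rcases exists_tp2 hd hd0 with ⟨t, rfl, rfl, rfl⟩ | ⟨t, s, rfl, rfl, rfl⟩
  · refine (cen_node_step hP hQ hR h8 i hd t h 𝒩 hbase hf).trans ?_
    nlinarith
  · have h1 : ∀ (p : Pt) (f : Pt → ℝ), CenC K P Q R (tp t l) (tp t m) (tp t n) p f →
        ∑ N ∈ 𝒩, |PL.H855.wN o (Function.update (h N.1 N.2) i (pfw (fc i) K p f)) N| ≤
          1521 * (8 * X) :=
      fun p f hf => cen_node_step hP hQ hR h8 i (hd.tp t) s h 𝒩 hbase hf
    refine (cen_node_step hP hQ hR (by positivity) i hd t h 𝒩 h1 hf).trans (le_of_eq ?_)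
    ring

end cen

end

end Vale.Agent.P141.H639
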