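import Vale.Agent.P141.H639.CenCl
import Vale.Agent.P141.H971.Cen
import Vale.Agent.P141.H437.EnMo
import Vale.Agent.P141.H444.GenCost
import Vale.Agent.P141.H347.GSys

/-!
# P141: from the box cost of the centre atoms in ONE position to the costs of the classes

`CeB K t e X Cl`: every function of the class `Cl` costs at most `X` on the boxes, the moving slot
(only locally in `L²`) is `F2`.  For the class of the centre atoms with the labels at `x₁`, the gauge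
on `(x₂, x₃)`, the vector edges `u` on `(x₁, x₂)` and `v` on `(x₁, x₃)` (so the moving slot sits on
the edge of `v`) this gives the cost of the push-forward of a centre atom in ANY position, for every
class `kap z`, every role and both orientations (`cost_cen`).
-/

namespace Vale.Agent.P141.H639

open Finset Vale.Agent.P141.PL Vale.Agent.P141.PL.H560 Vale.Agent.P141.H48
open Vale.Agent.P141.PL (Pt el fc)
open Vale.Agent.P141.PL.H321 (t12 t23)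
open Vale.Agent.P141.PL.H315 (avg cube3 put le)
open Vale.Agent.P141.PL.H95 (gr)
open Vale.Agent.P141.PL.H855 (wN TT wN_congr update_apply_node)
open Vale.Agent.P141.H347.Tr (cmN)
open Vale.Agent.P141.H347.Gs (kap kap_self kap_ne)
open Vale.Agent.P141.H414 (sf jf cf usl_cf cf_good cmN_eq)
open Vale.Agent.P141.H444 (alR alv_alR esl_alR kl_alR rgN rgn_rgN nd_rgN en_of_stat su_of_stat
  usl_of_su esl_mono l2c csz_fc_7)
open Vale.Agent.P141.H572 (cosF)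
open Vale.Agent.P141.H736 (Cls Blw val cost stcP Stat noneS vals_nonempty)
open Vale.Agent.P141.H922 (n2)

noncomputable section

open scoped Classical

/-! ### one position on the boxes -/

/-- **The cost on the boxes in one position**: the moving slot is `F2`. -/
def CeB (K : ℕ) (t e X : ℝ) (Cl : Pt → (Pt → ℝ) → Prop) : Prop :=
  ∀ n : ℕ, K ≤ n → ∀ F1 F2 F3 : ℕ → Pt → ℝ, US n t e 52 F1 → ES n e 52 F2 → US n t e 52 F3 →
    ∀ o : ℤ, o = 1 ∨ o = -1 → ∀ (x : Pt) (f : Pt → ℝ), Cl x f →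
      cosF o K x f (fun k _ => F1 k) (fun k _ => F2 k) (fun k _ => F3 k) ≤ X

theorem CeB.mono {K : ℕ} {t e X X' : ℝ} {Cl Cl' : Pt → (Pt → ℝ) → Prop} (h : CeB K t e X Cl)
    (hX : X ≤ X') (hC : ∀ x f, Cl' x f → Cl x f) : CeB K t e X' Cl' :=
  fun n hn F1 F2 F3 h1 h2 h3 o ho x f hf => (h n hn F1 F2 F3 h1 h2 h3 o ho x f (hC x f hf)).trans hX

theorem es_mono {n : ℕ} {e e' cP : ℝ} {F : ℕ → Pt → ℝ} (he : e ≤ e') (h : ES n e cP F) :
    ES n e' cP F := by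
  obtain ⟨h0, Q, h1⟩ := h
  exact ⟨h0.trans he, Q, h1.agree, h1.pack,
    fun k hk m x y => (h1.l0 k hk m x y).trans (mul_le_mul_of_nonneg_right he (by positivity)),
    fun k hk m x y => (h1.l1 k hk m x y).trans (mul_le_mul_of_nonneg_right he (by positivity)),
    fun k hk m x y => (h1.l2 k hk m x y).trans (mul_le_mul_of_nonneg_right he (by positivity))⟩

variable {V : Type*} [NormedAddCommGroup V] [InnerProductSpace ℝ V]
variable {K : ℕ} {P : Finset ℤ → Finset ℤ → (ℤ → ℤ → ℝ) → Prop}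
  {Q R : Finset ℤ → Finset ℤ → (ℤ → ℤ → V) → Prop}

theorem cen_t12 {l m n : Fin 3} {p : Pt} {f : Pt → ℝ} (hf : CenC K P Q R l m n p f) :
    CenC K P Q R (tp 2 l) (tp 2 m) (tp 2 n) (t12 p) fun q => f (t12 q) := cen_rp 2 hf

theorem co_t23 (j : Fin 3) (q : Pt) : co j (t23 q) = co (tp 0 j) q := by
  obtain rfl | rfl | rfl := fin3 j <;> rfl

theorem co_t23' (j : Fin 3) (q : Pt) : co (tp 0 j) (t23 q) = co j q := by
  obtain rfl | rfl | rfl := fin3 j <;> rfl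

theorem cen_t23 {l m n : Fin 3} {p : Pt} {f : Pt → ℝ} (hf : CenC K P Q R l m n p f) :
    CenC K P Q R (tp 0 l) (tp 0 m) (tp 0 n) (t23 p) fun q => f (t23 q) := by
  obtain ⟨g, u, v, rfl, h1, h2, h3⟩ := hf
  refine ⟨g, u, v, funext fun q => ?_, ?_, ?_, ?_⟩
  · unfold cenf
    simp only [co_t23]
  · rw [co_t23', co_t23']; exact h1
  · rw [co_t23', co_t23']; exact h2
  · rw [co_t23', co_t23']; exact h3

/-- the position of the label, of the split vertex and of the third vertex, the moving slot is `p` -/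
def zl (p : Fin 3) : Fin 3 := match p with
  | 0 => 1
  | 1 => 0
  | 2 => 0

/-- the split vertex -/
def zm (p : Fin 3) : Fin 3 := match p with
  | 0 => 0
  | 1 => 1
  | 2 => 2

/-- the third vertex -/
def zn (p : Fin 3) : Fin 3 := match p with
  | 0 => 2
  | 1 => 2
  | 2 => 1

theorem dis_z (p : Fin 3) : Dis (zl p) (zm p) (zn p) := by revert p; decide

/-- **the three positions of the moving slot** -/
theorem ceB_pos {t e X : ℝ} (h : CeB K t e X (CenC K P Q R 0 1 2)) {n : ℕ} (hn : K ≤ n)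
    {F : Fin 3 → ℕ → Pt → ℝ} (p : Fin 3) (hU : ∀ j, j ≠ p → US n t e 52 (F j))
    (hE : ES n e 52 (F p)) {o : ℤ} (ho : o = 1 ∨ o = -1) (x : Pt) (f : Pt → ℝ)
    (hf : CenC K P Q R (zl p) (zm p) (zn p) x f) :
    cosF o K x f (fun k _ => F 0 k) (fun k _ => F 1 k) (fun k _ => F 2 k) ≤ X := by
  obtain rfl | rfl | rfl := fin3 p
  · have h1 := h n hn (F 1) (F 0) (fun k => s23 (F 2 k)) (hU 1 (by decide)) hE
      (H414.US.s23 (hU 2 (by decide))) o ho (t12 x) _ (cen_t12 hf)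
    exact (cosF_t12 o K x f (fun k _ => F 0 k) (fun k _ => F 1 k) (fun k _ => F 2 k)) ▸ h1
  · exact h n hn _ _ _ (hU 0 (by decide)) hE (hU 2 (by decide)) o ho x f hf
  · have h1 := h n hn (fun k => s23 (F 0 k)) (F 2) (F 1) (H414.US.s23 (hU 0 (by decide))) hE
      (hU 1 (by decide)) o ho (t23 x) _ (cen_t23 hf)
    exact (cosF_t23 o K x f (fun k _ => F 0 k) (fun k _ => F 1 k) (fun k _ => F 2 k)) ▸ h1

/-- **The box costs of one role**, static companions on the alive cells, `jf i p` the moving slot. -/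
theorem costCR_cen {T0 : ℝ} (hT1 : 1 ≤ T0) (hT : CmpSt 7 T0) {t e X : ℝ} (ht : 0 ≤ t)
    (hte : t ^ 2 ≤ e) (h : CeB K (T0 * t) (T0 ^ 2 * e) X (CenC K P Q R 0 1 2)) {σ : ℤ}
    {al : ℕ → ℤ → Prop} (hal : Alv 7 σ al) {n : ℕ} (hn : K ≤ n) {f : Fin 4 → ℤ → ℝ} (i : Fin 4)
    (p : Fin 3) (hE : ∀ j, ESl 7 σ al n e (f (jf i j)))
    (hU : ∀ j, j ≠ p → USl 7 σ al n (fc (jf i j)) t (f (jf i j))) {o : ℤ} (ho : o = 1 ∨ o = -1) :
    CostCR i o K X (CenC K P Q R (zl p) (zm p) (zn p)) (fun k _ j => kl al (f j) k) := by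
  have he : 0 ≤ e := (sq_nonneg t).trans hte
  intro x w hw
  simp only [cmN_eq]
  refine ceB_pos (F := sf al f i) h hn p (fun j hj => ?_) ?_ ho x w hw
  · have g := cf_good i j
    exact (hT σ al hal n (cf i j) g.1 g.2.1 g.2.2.1 g.2.2.2.1 g.2.2.2.2.1 g.2.2.2.2.2 e
      (f (jf i j)) he (hE j)).2 t ht hte (usl_cf i j (hU j hj))
  · have g := cf_good i p
    have h1 := (hT σ al hal n (cf i p) g.1 g.2.1 g.2.2.1 g.2.2.2.1 g.2.2.2.2.1 g.2.2.2.2.2 e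
      (f (jf i p)) he (hE p)).1
    refine es_mono ?_ h1
    have : T0 * e ≤ T0 ^ 2 * e := mul_le_mul_of_nonneg_right (by nlinarith) he
    exact this

/-! ### the cost of the classes -/

theorem jf_surj : ∀ r z : Fin 4, z ≠ r → ∃ p, jf r p = z := by decide

theorem jf_ne : ∀ (r : Fin 4) (p : Fin 3), jf r p ≠ r := by decide

theorem jf_inj : ∀ (r : Fin 4) (p q : Fin 3), jf r p = jf r q → p = q := by decide

/-- every class of companions: one moving slot, the others uniform -/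
theorem kap_stat {σ : ℤ} {t : ℝ} {ht : 0 < t} {E : ℝ} {hE : 0 ≤ E} (z r : Fin 4) {Λ : ℕ} {x : ℤ}
    {𝒩 : Finset H736.Nd} {A : Fin 4 → H736.Nd → ℤ → ℝ}
    (hA : ∀ l, l ≠ r → (kap σ t ht E hE z l).ok Λ ((gr 7 σ).cube Λ x) 𝒩 (A l)) :
    ∃ (p : Fin 3) (O : Fin 4 → ℤ → ℝ),
      (∀ l, l ≠ r → ∀ N ∈ 𝒩, ∀ y ∈ (gr 7 σ).cube N.1 (le N), A l N y = O l y) ∧
      (∀ j, ESl 7 σ (alR Λ (rgN σ Λ 𝒩)) Λ E (O (jf r j))) ∧
      ∀ j, j ≠ p → USl 7 σ (alR Λ (rgN σ Λ 𝒩)) Λ (fc (jf r j)) t (O (jf r j)) := by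
  -- one companion
  have one : ∀ l, ∃ O : ℤ → ℝ, l ≠ r →
      (∀ N ∈ 𝒩, ∀ y ∈ (gr 7 σ).cube N.1 (le N), A l N y = O y) ∧
      ESl 7 σ (alR Λ (rgN σ Λ 𝒩)) Λ E O ∧
      (l ≠ z → USl 7 σ (alR Λ (rgN σ Λ 𝒩)) Λ (fc l) t O) := by
    intro l
    by_cases hl : l = r
    · exact ⟨0, fun h => absurd hl h⟩
    · have h1 := hA l hl
      by_cases hz : l = z
      · subst hz
        rw [kap_self] at h1
        obtain ⟨O, h2, h3⟩ := h1
        exact ⟨O, fun _ => ⟨h2, esl_alR (en_of_stat h3), fun h => absurd rfl h⟩⟩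
      · rw [kap_ne σ t ht E hE hz] at h1
        obtain ⟨O, h2, h3⟩ := h1
        exact ⟨O, fun _ => ⟨h2, esl_alR (en_of_stat h3), fun _ => usl_of_su (su_of_stat ht h3)⟩⟩
  choose O hO using one
  obtain ⟨p, hp⟩ : ∃ p : Fin 3, ∀ j, j ≠ p → jf r j ≠ z := by
    by_cases hz : z = r
    · exact ⟨0, fun j _ => hz ▸ jf_ne r j⟩
    · obtain ⟨p, hp⟩ := jf_surj r z hz
      exact ⟨p, fun j hj h => hj (jf_inj r j p (h.trans hp.symm))⟩
  exact ⟨p, O, fun l hl => (hO l hl).1, fun j => (hO _ (jf_ne r j)).2.1,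
    fun j hj => (hO _ (jf_ne r j)).2.2 (hp j hj)⟩

/-- **THE COST OF A CENTRE ATOM IN ANY POSITION**, for every class `kap z`, every role, both
orientations, from the box cost in one position. -/
theorem cost_cen (hP : Clo P) (hQ : Clo Q) (hR : Clo R) {T0 : ℝ} (hT1 : 1 ≤ T0)
    (hT : CmpSt 7 T0) {σ : ℤ} {t : ℝ} {ht : 0 < t} {E : ℝ} {hE : 0 ≤ E} {e : ℝ} (hEe : E ≤ e)
    (hte : t ^ 2 ≤ e) {X : ℝ} (hX : 0 ≤ X)
    (h : CeB K (T0 * t) (T0 ^ 2 * e) X (CenC K P Q R 0 1 2)) (z r : Fin 4) {o : ℤ}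
    (ho : o = 1 ∨ o = -1) {l m n : Fin 3} (hd : Dis l m n) {p : Pt} {f : Pt → ℝ}
    (hf : CenC K P Q R l m n p f) (x : ℤ) :
    cost (kap σ t ht E hE z) o r (pfw (fc r) K p f) K ((gr 7 σ).cube K x) ≤
      1521 ^ 2 * (8 * X) := by
  refine csSup_le (vals_nonempty _ o r _ K x) ?_
  rintro v ⟨𝒩, A, hb, hA, rfl⟩
  obtain ⟨pz, O, h1, h2, h3⟩ := kap_stat z r hA
  have hRg := rgn_rgN hb
  have hW := nd_rgN hb
  have e1 : H736.val o r (pfw (fc r) K p f) 𝒩 A = ∑ N ∈ 𝒩, |wN o (Function.update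
      (fun l => kl (alR K (rgN σ K 𝒩)) (O l) N.1) r (pfw (fc r) K p f)) N| := by
    unfold H736.val TT
    refine sum_congr rfl fun N hN => ?_
    rw [update_apply_node]
    congr 1
    refine wN_congr ho fun j y hy => ?_
    have hy' := (hb N hN).2.2.1 hy
    by_cases hj : j = r
    · subst hj
      rw [Function.update_self, Function.update_self]
    · rw [Function.update_of_ne hj, Function.update_of_ne hj, h1 j hj N hN y hy']
      refine (kl_alR ?_).symm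
      exact (hRg.const _ _ _ hy').2 (hW N hN).2.2
  rw [e1]
  have hcost : CostCR r o K X (CenC K P Q R (zl pz) (zm pz) (zn pz))
      (fun k _ j => kl (alR K (rgN σ K 𝒩)) (O j) k) :=
    costCR_cen hT1 hT ht.le hte h (alv_alR hRg) le_rfl r pz
      (fun j => esl_mono hEe (h2 j)) h3 ho
  exact cen_node hP hQ hR hX r hd (dis_z pz) _ hcost hf 𝒩 fun N hN =>
    ⟨(hb N hN).1, (hb N hN).2.1⟩

/-! ### the forms of the slots -/

/-- the push-forward along `d` of a centre atom is one along `d'` -/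
def SymF (K : ℕ) (P : Finset ℤ → Finset ℤ → (ℤ → ℤ → ℝ) → Prop)
    (Q R : Finset ℤ → Finset ℤ → (ℤ → ℤ → V) → Prop) (d d' : Pt) : Prop :=
  ∀ (l m n : Fin 3), Dis l m n → ∀ (q : Pt) (f : Pt → ℝ), CenC K P Q R l m n q f →
    ∃ (l' m' n' : Fin 3) (q' : Pt) (f' : Pt → ℝ), Dis l' m' n' ∧ CenC K P Q R l' m' n' q' f' ∧
      pfw d K q f = pfw d' K q' f'

theorem symF_refl (d : Pt) : SymF K P Q R d d :=
  fun l m n hd q f hf => ⟨l, m, n, q, f, hd, hf, rfl⟩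

theorem dis_tp {l m n : Fin 3} (h : Dis l m n) (t : Fin 3) : Dis (tp t l) (tp t m) (tp t n) := by
  revert l m n t; decide

theorem symF_t12 {d d' : Pt} (h : SymF K P Q R d d') : SymF K P Q R (t12 d) d' := by
  intro l m n hd q f hf
  obtain ⟨l', m', n', q', f', h1, h2, h3⟩ := h _ _ _ (dis_tp hd 2) (t12 q) _ (cen_t12 hf)
  refine ⟨l', m', n', q', f', h1, h2, ?_⟩
  rw [← h3, pfw_t12 (t12 d) K q f]
  rfl

theorem symF_t23 {d d' : Pt} (h : SymF K P Q R d d') : SymF K P Q R (t23 d) d' := by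
  intro l m n hd q f hf
  obtain ⟨l', m', n', q', f', h1, h2, h3⟩ := h _ _ _ (dis_tp hd 0) (t23 q) _ (cen_t23 hf)
  refine ⟨l', m', n', q', f', h1, h2, ?_⟩
  rw [← h3, pfw_t23 (t23 d) K q f]
  rfl

theorem symF_cf (i : Fin 4) (p : Fin 3) : SymF K P Q R (cf i p) (fc (jf i p)) := by
  fin_cases i <;> fin_cases p
  · exact symF_refl _
  · exact symF_refl _
  · exact symF_refl _
  · exact symF_refl _
  · exact symF_t12 (symF_refl _)
  · exact symF_t12 (symF_refl _)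
  · exact symF_t12 (symF_refl _)
  · exact symF_t12 (symF_refl _)
  · exact symF_t23 (symF_t12 (symF_t23 (symF_refl _)))
  · exact symF_t12 (symF_t23 (symF_refl _))
  · exact symF_t23 (symF_t12 (symF_t23 (symF_refl _)))
  · exact symF_t23 (symF_t12 (symF_t23 (symF_refl _)))

/-- **The cost of a centre atom in any position, for the form of any slot** `cf i pz` of the face
`jf i pz`. -/
theorem cost_cen_cf (hP : Clo P) (hQ : Clo Q) (hR : Clo R) {T0 : ℝ} (hT1 : 1 ≤ T0)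
    (hT : CmpSt 7 T0) {σ : ℤ} {t : ℝ} {ht : 0 < t} {E : ℝ} {hE : 0 ≤ E} {e : ℝ} (hEe : E ≤ e)
    (hte : t ^ 2 ≤ e) {X : ℝ} (hX : 0 ≤ X)
    (h : CeB K (T0 * t) (T0 ^ 2 * e) X (CenC K P Q R 0 1 2)) (z : Fin 4) (i : Fin 4)
    (pz : Fin 3) {o : ℤ} (ho : o = 1 ∨ o = -1) {l m n : Fin 3} (hd : Dis l m n) {p : Pt}
    {f : Pt → ℝ} (hf : CenC K P Q R l m n p f) (x : ℤ) :
    cost (kap σ t ht E hE z) o (jf i pz) (pfw (cf i pz) K p f) K ((gr 7 σ).cube K x) ≤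
      1521 ^ 2 * (8 * X) := by
  obtain ⟨l', m', n', q', f', h1, h2, h3⟩ := symF_cf i pz l m n hd p f hf
  rw [h3]
  exact cost_cen hP hQ hR hT1 hT hEe hte hX h z _ ho h1 h2 x

/-- 572's composite atoms on the line -/
theorem a1v_eq_pfw {κ1 κ2 κ3 : Type*} [Fintype κ1] [Fintype κ2] [Fintype κ3]
    (a : κ1 → κ2 → ℤ × ℤ → ℝ) (b : κ1 → κ3 → ℤ × ℤ → ℝ) (c : κ2 → κ3 → ℤ × ℤ → ℝ) (d : Pt)
    (k : ℕ) (q : Pt) : H572.a1v a b c d k q = pfw d k q (H572.catm a b c) := rfl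

/-! ### 971's centre data -/

section cen971

/-- the bounds of the gauge of `Cen`: split vertex first -/
def PCen (h p : ℝ) (I J : Finset ℤ) (a : ℤ → ℤ → ℝ) : Prop :=
  (∀ x ∈ I, ∀ y ∈ J, |a x y| ≤ h) ∧ n2 (I ×ˢ J) (H834.gf a) ≤ p ∧
    ∀ x ∈ I, (avg J fun y => a x y ^ 2) ≤ h * p

/-- the bounds of the split edge of `Cen`: label vertex first -/
def QCen (h p e Kp : ℝ) (I J : Finset ℤ) (u : ℤ → ℤ → V) : Prop :=
  (∀ z ∈ I, ∀ x ∈ J, ‖u z x‖ ^ 2 ≤ h ^ 2 * e) ∧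
    (avg I fun z => avg J fun x => ‖u z x‖ ^ 2) ≤ e * p ^ 2 ∧
    (∀ x ∈ J, (avg I fun z => ‖u z x‖ ^ 2) ≤ e * (h * p)) ∧
    ∀ z ∈ I, ∀ w : V, (avg J fun x => (inner ℝ (u z x) w) ^ 2) ≤ Kp * ‖w‖ ^ 2

/-- the bounds of the third edge of `Cen`: label vertex first -/
def RCen (h p e Kp : ℝ) (I J : Finset ℤ) (v : ℤ → ℤ → V) : Prop :=
  (∀ z ∈ I, ∀ y ∈ J, ‖v z y‖ ^ 2 ≤ h ^ 2 * e) ∧
    (avg I fun z => avg J fun y => ‖v z y‖ ^ 2) ≤ e * p ^ 2 ∧
    ∀ z ∈ I, ∀ w : V, (avg J fun y => (inner ℝ (v z y) w) ^ 2) ≤ Kp * ‖w‖ ^ 2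

theorem cen_iff {A B C : Finset ℤ} {h p e Kp : ℝ} {a : ℤ → ℤ → ℝ} {u v : ℤ → ℤ → V} :
    H971.Cen A B C h p e Kp a u v ↔
      PCen h p A B a ∧ QCen h p e Kp C A u ∧ RCen h p e Kp C B v := by
  constructor
  · rintro ⟨h1, h2, h3, h4, h5, h6, h7, h8, h9, h10⟩
    exact ⟨⟨h1, h2, h3⟩, ⟨h4, h6, h8, h9⟩, ⟨h5, h7, h10⟩⟩
  · rintro ⟨⟨h1, h2, h3⟩, ⟨h4, h6, h8, h9⟩, ⟨h5, h7, h10⟩⟩
    exact ⟨h1, h2, h3, h4, h5, h6, h7, h8, h9, h10⟩

theorem clo_congr {P P' : Finset ℤ → Finset ℤ → (ℤ → ℤ → V) → Prop}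
    (h : ∀ I J f, P I J f ↔ P' I J f) (hP : Clo P) : Clo P' :=
  fun _ _ _ _ _ _ hI hJ hs hp => (h _ _ _).1 (hP _ _ _ _ _ _ hI hJ hs ((h _ _ _).2 hp))

theorem clo_pcen {h p : ℝ} (hh : 0 ≤ h) (hp : 0 ≤ p) : Clo (PCen h p) := by
  refine Clo.and (clo_pt (θ := fun w : ℝ => |w|) (by simpa using hh)) (Clo.and ?_ ?_)
  · refine clo_congr (P := fun I J a => (avg (I ×ˢ J) fun q => a q.1 q.2 ^ 2) ≤ p ^ 2)
      (fun I J f => ?_) (clo_mass' (θ := fun w : ℝ => w ^ 2) (by simp) (fun w => sq_nonneg w) _)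
    have e : n2 (I ×ˢ J) (H834.gf f) ^ 2 = avg (I ×ˢ J) fun q => f q.1 q.2 ^ 2 :=
      H922.n2_sq _ _
    rw [← e]
    exact sq_le_sq₀ (H922.n2_nonneg _ _) hp
  · exact clo_row (θ := fun w : ℝ => w ^ 2) (by simp) (fun w => sq_nonneg w) (mul_nonneg hh hp)

theorem clo_pot {Kp : ℝ} (hK : 0 ≤ Kp) : Clo (V := V) fun I J u => ∀ z ∈ I, ∀ w : V,
    (avg J fun x => (inner ℝ (u z x) w) ^ 2) ≤ Kp * ‖w‖ ^ 2 := by
  refine clo_congr (P := fun I J u => ∀ w : V, ∀ z ∈ I,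
    (avg J fun x => (inner ℝ (u z x) w) ^ 2) ≤ Kp * ‖w‖ ^ 2)
    (fun I J f => ⟨fun h z hz w => h w z hz, fun h w z hz => h z hz w⟩)
    (Clo.all fun w => clo_row (θ := fun v : V => (inner ℝ v w) ^ 2) (by simp)
      (fun v => sq_nonneg _) (by positivity))

theorem clo_qcen {h p e Kp : ℝ} (hh : 0 ≤ h) (hp : 0 ≤ p) (he : 0 ≤ e) (hK : 0 ≤ Kp) :
    Clo (V := V) (QCen h p e Kp) := by
  refine Clo.and (clo_pt (θ := fun w : V => ‖w‖ ^ 2) (by simp; positivity)) (Clo.and ?_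
    (Clo.and ?_ (clo_pot hK)))
  · exact clo_mass (θ := fun w : V => ‖w‖ ^ 2) (by simp) (fun w => by positivity) _
  · exact clo_col (θ := fun w : V => ‖w‖ ^ 2) (by simp) (fun w => by positivity) (by positivity)

theorem clo_rcen {h p e Kp : ℝ} (hh : 0 ≤ h) (hp : 0 ≤ p) (he : 0 ≤ e) (hK : 0 ≤ Kp) :
    Clo (V := V) (RCen h p e Kp) := by
  refine Clo.and (clo_pt (θ := fun w : V => ‖w‖ ^ 2) (by simp; positivity)) (Clo.and ?_
    (clo_pot hK))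
  exact clo_mass (θ := fun w : V => ‖w‖ ^ 2) (by simp) (fun w => by positivity) _

/-- **CE1 in one position, 971's letters**: label vertex `x₁` = the fibre, split vertex `x₂`, the
moving slot `F2` on the edge `(x₁, x₃)` of `v`. -/
def CeP (V : Type*) [NormedAddCommGroup V] [InnerProductSpace ℝ V] (K : ℕ)
    (t e X h p e0 Kp : ℝ) : Prop :=
  ∀ n : ℕ, K ≤ n → ∀ F1 F2 F3 : ℕ → Pt → ℝ, US n t e 52 F1 → ES n e 52 F2 → US n t e 52 F3 →
    ∀ o : ℤ, o = 1 ∨ o = -1 → ∀ (x : Pt) (a : ℤ → ℤ → ℝ) (u v : ℤ → ℤ → V),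
      H971.Cen (PL.H315.iv K x.2.1) (PL.H315.iv K x.2.2) (PL.H315.iv K x.1) h p e0 Kp a u v →
      cosF o K x (fun y => a y.2.1 y.2.2 * inner ℝ (u y.1 y.2.1) (v y.1 y.2.2))
        (fun k _ => F1 k) (fun k _ => F2 k) (fun k _ => F3 k) ≤ X

theorem ceB_of_ceP {t e X h p e0 Kp : ℝ} (hc : CeP V K t e X h p e0 Kp) :
    CeB K t e X (CenC K (PCen h p) (QCen (V := V) h p e0 Kp) (RCen h p e0 Kp) 0 1 2) := by
  rintro n hn F1 F2 F3 h1 h2 h3 o ho x f ⟨g, u, v, rfl, ha, hb, hc'⟩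
  exact hc n hn F1 F2 F3 h1 h2 h3 o ho x g u v (cen_iff.2 ⟨ha, hb, hc'⟩)

/-- **THE COST OF A CENTRE ATOM** (971's `Cen`, label vertex `l` = the fibre, split vertex `m`, third
vertex `n`, in any order), for every class `kap z`, both orientations and the form of any slot. -/
theorem cost_Cen {T0 : ℝ} (hT1 : 1 ≤ T0) (hT : CmpSt 7 T0) {σ : ℤ} {t : ℝ} {ht : 0 < t} {E : ℝ}
    {hE : 0 ≤ E} {e : ℝ} (hEe : E ≤ e) (hte : t ^ 2 ≤ e) {X h p e0 Kp : ℝ} (hX : 0 ≤ X)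
    (hh : 0 ≤ h) (hp : 0 ≤ p) (he0 : 0 ≤ e0) (hK : 0 ≤ Kp)
    (hc : CeP V K (T0 * t) (T0 ^ 2 * e) X h p e0 Kp) (z : Fin 4) (i : Fin 4) (pz : Fin 3)
    {o : ℤ} (ho : o = 1 ∨ o = -1) {l m n : Fin 3} (hd : Dis l m n) {q : Pt} {a : ℤ → ℤ → ℝ}
    {u v : ℤ → ℤ → V}
    (hf : H971.Cen (PL.H315.iv K (co m q)) (PL.H315.iv K (co n q)) (PL.H315.iv K (co l q))
      h p e0 Kp a u v) (x : ℤ) :
    cost (kap σ t ht E hE z) o (jf i pz) (pfw (cf i pz) K q (cenf l m n a u v)) K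
      ((gr 7 σ).cube K x) ≤ 1521 ^ 2 * (8 * X) := by
  obtain ⟨h1, h2, h3⟩ := cen_iff.1 hf
  exact cost_cen_cf (clo_pcen hh hp) (clo_qcen hh hp he0 hK) (clo_rcen hh hp he0 hK) hT1 hT hEe
    hte hX (ceB_of_ceP hc) z i pz ho hd ⟨a, u, v, rfl, h1, h2, h3⟩ x

end cen971

end

end Vale.Agent.P141.H639
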