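import Vale.Agent.P141.H639.LowC
import Vale.Agent.P141.H120.LabK
import Vale.Agent.P141.H579.LowB
import Vale.Agent.P141.H305.Top0

/-!
# P141, low edge: the box price and the costs of the level

`boxL : BoxL` from 579's price with the weighted pair weight (`pos2K`, `k = β ^ (1 / 4)`,
`ε = η / 2`) and 120's labels; `cenStL3 : CenStL3`, `cenStL2 : CenStL2`.
-/

namespace Vale.Agent.P141.H639

open Finset Vale.Agent.P141.PL
open Vale.Agent.P141.PL.H315 (cube3 atm Tri card_cube3)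
open Vale.Agent.P141.H48 (US ES cG cG_nonneg Lam0 prE)
open Vale.Agent.P141.H498 (cEng cEng_nonneg)
open Vale.Agent.P141.H572 (cosF)
open Vale.Agent.P141.H922 (pw3 pw3_nonneg)
open Vale.Agent.P141.H579 (wK X13 pos2K)
open Vale.Agent.P141.H305 (prE_le)
open Vale.Agent.P141.H927 (CenStL3 CenStL2 cenStL2_of_L3)

noncomputable section

open scoped Classical

/-- **The box price.** -/
theorem boxL : BoxL := by
  intro c η hc0 hc1 hη hη1 Kt e cP e0 hKt he hcP he0
  set ε : ℝ := η / 2 with hε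
  have hε0 : 0 < ε := by positivity
  have hε1 : ε ≤ 1 / 8 := by rw [hε]; linarith
  set A : ℝ := 2 * cG Lam0 cP 240000 cEng ε with hA
  have hA0 : 0 ≤ A := by
    have := cG_nonneg (Λ := Lam0) (cP := cP) (K0 := 240000) (C := cEng) hcP (by norm_num)
      cEng_nonneg hε0
    positivity
  set B : ℝ := (Kt * Kt) ^ (1 / 2 - ε) * (e * e) ^ (1 / 4 + ε / 2) with hB
  have hB0 : 0 ≤ B := by
    have h3 : 0 ≤ (Kt * Kt) ^ (1 / 2 - ε) := by positivity
    have h4 : 0 ≤ (e * e) ^ (1 / 4 + ε / 2) := Real.rpow_nonneg (by positivity) _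
    positivity
  refine ⟨18 * e0 * (A * B) * 2, by positivity, ?_⟩
  intro t ht ht1 n ez F1 F2 F3 h1 h3 h2 o ho K hKn x V _ _ _ h p W β g u v hh hp hW hβ hβ1
    hcen hlow
  set k : ℝ := β ^ (1 / 4 : ℝ) with hk
  have hk0 : 0 < k := Real.rpow_pos_of_pos hβ _
  have hk1 : k ≤ 1 := Real.rpow_le_one hβ.le hβ1 (by norm_num)
  have htp : 0 < t ^ (1 - c - 2 * ε) := Real.rpow_pos_of_pos ht _
  set P : ℝ := A * B * (t ^ (1 - c - 2 * ε) * √ez) with hP
  have hP0 : 0 ≤ P := by positivity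
  have hkk : 0 ≤ k ^ (-(8 * ε)) := Real.rpow_nonneg hk0.le _
  have hS : ∀ w : Tri, cosF o K x (atm w) (fun k _ => F1 k) (fun k _ => F2 k)
      (fun k _ => F3 k) ≤ P * (8 ^ K * (k ^ (-(8 * ε)) * H120.X1 (cube3 K x) w +
        k * pw3 (cube3 K x) w)) := by
    intro w
    have q := pos2K hε0 hε1 hcP n _ _ e ez e F1 F2 F3 h1 h3 h2 o ho k hk0 hk1 K hKn x w
    have hp' := prE_le (Kt := Kt) (e := e) (ez := ez) hKt ht ht1 hc0 hε0 (by linarith)
    have hw0 : 0 ≤ wK (k ^ (-(8 * ε))) k (cube3 K x) w := H579.wK_nonneg hkk hk0.le _ _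
    have e1 : wK (k ^ (-(8 * ε))) k (cube3 K x) w = 8 ^ K *
        (k ^ (-(8 * ε)) * H120.X1 (cube3 K x) w + k * pw3 (cube3 K x) w) := by
      unfold wK X13 H120.X1
      rw [card_cube3]
      push_cast
      rfl
    rw [← e1]
    refine (show cosF o K x (atm w) (fun k _ => F1 k) (fun k _ => F2 k) (fun k _ => F3 k) ≤ _
      from q).trans (mul_le_mul_of_nonneg_right ?_ hw0)
    calc A * prE ε (Kt * t ^ (1 - c)) (Kt * t ^ (1 - c)) e e ez
        ≤ A * ((Kt * Kt) ^ (1 / 2 - ε) * (e * e) ^ (1 / 4 + ε / 2) *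
            (t ^ (1 - c - 2 * ε) * √ez)) := mul_le_mul_of_nonneg_left hp' hA0
      _ = P := by rw [hP, hB]; ring
  have key := H120.cosF_cen_low hP0 hkk hk0.le hS hh hp he0.le hβ.le hcen hlow
  refine key.trans ?_
  -- the power of the low edge
  have r1 : √√β = β ^ (1 / 4 : ℝ) := by
    rw [Real.sqrt_eq_rpow, Real.sqrt_eq_rpow, ← Real.rpow_mul hβ.le]
    norm_num
  have r2 : k ^ (-(8 * ε)) * √√β ≤ β ^ (1 / 8 : ℝ) := by
    rw [r1, hk, ← Real.rpow_mul hβ.le, ← Real.rpow_add hβ]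
    refine Real.rpow_le_rpow_of_exponent_ge hβ hβ1 ?_
    rw [hε]
    linarith
  have r3 : k ≤ β ^ (1 / 8 : ℝ) :=
    Real.rpow_le_rpow_of_exponent_ge hβ hβ1 (by norm_num)
  have r4 : k ^ (-(8 * ε)) * √√β + k ≤ 2 * β ^ (1 / 8 : ℝ) := by linarith
  have hT0 : 0 ≤ √h * (p ^ 2 * √p) := by positivity
  have hte : t ^ (1 - c - 2 * ε) = t ^ (1 - c - η) := by rw [hε]; congr 1; ring
  calc 18 * e0 * P * (8 ^ K * ((k ^ (-(8 * ε)) * √√β + k) * (√h * (p ^ 2 * √p))))
      ≤ 18 * e0 * P * (8 ^ K * ((2 * β ^ (1 / 8 : ℝ)) * (√h * (p ^ 2 * √p)))) := by gcongr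
    _ = _ := by rw [hP, hte]; ring

/-- **The centre atoms with one low vector edge in the costs of the level.** -/
theorem cenStL3 : CenStL3 := cenStL3_of_box boxL

theorem cenStL2 : CenStL2 := cenStL2_of_L3 cenStL3

end

end Vale.Agent.P141.H639
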