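import Vale.Agent.P141.H639.Sw
import Vale.Agent.P141.PL.H318.Sys1
import Vale.Agent.P141.H922.PairW

/-!
# P141, line W: the vertices of an atom may be permuted

The push-forward of a function of three coordinates under a linear form with non zero
coefficients, on a cube of the scale `k`, is a sum of boundedly many push-forwards under the SAME
form, on cubes of the SAME scale, of the function with two coordinates exchanged (`pf_perm`).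
`t : Fin 3` is the coordinate which stays.  For a product of three edge functions the new
functions are products of the permuted edge functions, cut to residue classes and to the old
intervals (`cutP_atm`); averages of functions of the edges do not increase (`avg_eg_le`), so that
`n2`, `n4`, `nN`, `pw3`, `wP` do not increase.
-/

namespace Vale.Agent.P141.H639

open Finset
open Vale.Agent.P141.PL.H315 (iv mem_iv self_mem_iv card_iv iv_eq cube3 mem_cube3 card_cube3 Tri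
  e12 e13 e23 atm avg)
open Vale.Agent.P141.PL (Pt el)
open Vale.Agent.P141.H922 (n2 n4 nN pw3 wP n2_nonneg n4_nonneg nN_nonneg)

noncomputable section

/-! ### the pieces -/

/-- the first coefficient of the exchanged pair -/
def cA (t : Fin 3) (c : Pt) : ℤ := match t with
  | 0 => c.2.1
  | 1 => c.1
  | 2 => c.1

/-- the second coefficient of the exchanged pair -/
def cB (t : Fin 3) (c : Pt) : ℤ := match t with
  | 0 => c.2.2
  | 1 => c.2.2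
  | 2 => c.2.1

/-- the family of the pieces -/
def IxP (t : Fin 3) (c : Pt) (k : ℕ) (q : Pt) : Finset (ℤ × ℤ × ℤ × ℤ) :=
  Ix (cA t c) (cB t c) k (cA t q) (cB t q)

/-- the cube of a piece -/
def ctr (t : Fin 3) (k : ℕ) (q : Pt) (i : ℤ × ℤ × ℤ × ℤ) : Pt := match t with
  | 0 => (q.1, 2 ^ k * i.2.2.1, 2 ^ k * i.2.2.2)
  | 1 => (2 ^ k * i.2.2.1, q.2.1, 2 ^ k * i.2.2.2)
  | 2 => (2 ^ k * i.2.2.1, 2 ^ k * i.2.2.2, q.2.2)

/-- the condition of a piece -/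
def KP (t : Fin 3) (c : Pt) (k : ℕ) (q : Pt) (i : ℤ × ℤ × ℤ × ℤ) (z : Pt) : Prop :=
  Kp (cA t c) (cB t c) k (cA t q) (cB t q) i (cA t z) (cB t z)

instance (t : Fin 3) (c : Pt) (k : ℕ) (q : Pt) (i : ℤ × ℤ × ℤ × ℤ) (z : Pt) :
    Decidable (KP t c k q i z) := by
  unfold KP; infer_instance

/-- the substitution of a piece -/
def sb (t : Fin 3) (c : Pt) (i : ℤ × ℤ × ℤ × ℤ) (z : Pt) : Pt := match t with
  | 0 => (z.1, fr c.2.1 c.2.2 i.1 z.2.2, fr c.2.2 c.2.1 i.2.1 z.2.1)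
  | 1 => (fr c.1 c.2.2 i.1 z.2.2, z.2.1, fr c.2.2 c.1 i.2.1 z.1)
  | 2 => (fr c.1 c.2.1 i.1 z.2.1, fr c.2.1 c.1 i.2.1 z.1, z.2.2)

/-- the function of a piece -/
def cutP (t : Fin 3) (c : Pt) (k : ℕ) (q : Pt) (i : ℤ × ℤ × ℤ × ℤ) (w : Pt → ℝ) (z : Pt) : ℝ :=
  if KP t c k q i z then w (sb t c i z) else 0

/-- the coefficients are not zero -/
def Nz (c : Pt) : Prop := c.1 ≠ 0 ∧ c.2.1 ≠ 0 ∧ c.2.2 ≠ 0

theorem fin3 (t : Fin 3) : t = 0 ∨ t = 1 ∨ t = 2 := by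
  revert t; decide

theorem Nz.a {c : Pt} (h : Nz c) (t : Fin 3) : cA t c ≠ 0 := by
  obtain rfl | rfl | rfl := fin3 t
  · exact h.2.1
  · exact h.1
  · exact h.1

theorem Nz.b {c : Pt} (h : Nz c) (t : Fin 3) : cB t c ≠ 0 := by
  obtain rfl | rfl | rfl := fin3 t
  · exact h.2.2
  · exact h.2.2
  · exact h.2.1

theorem card_IxP_le {c : Pt} {M : ℕ} (h : |c.1| ≤ M ∧ |c.2.1| ≤ M ∧ |c.2.2| ≤ M) (t : Fin 3)
    (k : ℕ) (q : Pt) : (IxP t c k q).card ≤ M ^ 2 * (4 * M + 1) ^ 2 := by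
  refine card_Ix_le ?_ ?_ k _ _
  · obtain rfl | rfl | rfl := fin3 t
    · exact h.2.1
    · exact h.1
    · exact h.1
  · obtain rfl | rfl | rfl := fin3 t
    · exact h.2.2
    · exact h.2.2
    · exact h.2.1

/-- the substitution keeps the linear form -/
theorem el_sb {t : Fin 3} {c : Pt} {k : ℕ} {q : Pt} {i : ℤ × ℤ × ℤ × ℤ} {z : Pt}
    (h : KP t c k q i z) : el c (sb t c i z) = el c z := by
  unfold KP at h
  have h1 := lin_piece h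
  obtain rfl | rfl | rfl := fin3 t
  · change c.2.1 * fr c.2.1 c.2.2 i.1 z.2.2 + c.2.2 * fr c.2.2 c.2.1 i.2.1 z.2.1 =
      c.2.1 * z.2.1 + c.2.2 * z.2.2 at h1
    change c.1 * z.1 + c.2.1 * fr c.2.1 c.2.2 i.1 z.2.2 + c.2.2 * fr c.2.2 c.2.1 i.2.1 z.2.1 =
      c.1 * z.1 + c.2.1 * z.2.1 + c.2.2 * z.2.2
    linarith
  · change c.1 * fr c.1 c.2.2 i.1 z.2.2 + c.2.2 * fr c.2.2 c.1 i.2.1 z.1 =
      c.1 * z.1 + c.2.2 * z.2.2 at h1
    change c.1 * fr c.1 c.2.2 i.1 z.2.2 + c.2.1 * z.2.1 + c.2.2 * fr c.2.2 c.1 i.2.1 z.1 =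
      c.1 * z.1 + c.2.1 * z.2.1 + c.2.2 * z.2.2
    linarith
  · change c.1 * fr c.1 c.2.1 i.1 z.2.1 + c.2.1 * fr c.2.1 c.1 i.2.1 z.1 =
      c.1 * z.1 + c.2.1 * z.2.1 at h1
    change c.1 * fr c.1 c.2.1 i.1 z.2.1 + c.2.1 * fr c.2.1 c.1 i.2.1 z.1 + c.2.2 * z.2.2 =
      c.1 * z.1 + c.2.1 * z.2.1 + c.2.2 * z.2.2
    linarith

/-- a sum over a cube as an iterated sum -/
theorem sum_cube3 (k : ℕ) (q : Pt) (F : Pt → ℝ) : ∑ y ∈ cube3 k q, F y =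
    ∑ x ∈ iv k q.1, ∑ y ∈ iv k q.2.1, ∑ z ∈ iv k q.2.2, F (x, y, z) := by
  unfold cube3
  rw [sum_product]
  exact sum_congr rfl fun x _ => sum_product _ _ _

/-- **the exchange in a sum over a cube** -/
theorem sum_perm {c : Pt} (hc : Nz c) (t : Fin 3) (k : ℕ) (q : Pt) (F : Pt → ℝ) :
    ∑ y ∈ cube3 k q, F y =
      ∑ i ∈ IxP t c k q, ∑ z ∈ cube3 k (ctr t k q i), cutP t c k q i F z := by
  have ha := hc.a t
  have hb := hc.b t
  rw [sum_cube3]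
  simp_rw [sum_cube3]
  obtain rfl | rfl | rfl := fin3 t
  · have h1 : ∀ x ∈ iv k q.1, ∑ y ∈ iv k q.2.1, ∑ z ∈ iv k q.2.2, F (x, y, z) = _ :=
      fun x _ => sum_sw ha hb k q.2.1 q.2.2 fun y z => F (x, y, z)
    rw [sum_congr rfl h1, sum_comm]
    rfl
  · have h1 : ∑ x ∈ iv k q.1, ∑ y ∈ iv k q.2.1, ∑ z ∈ iv k q.2.2, F (x, y, z) =
        ∑ y ∈ iv k q.2.1, ∑ x ∈ iv k q.1, ∑ z ∈ iv k q.2.2, F (x, y, z) := sum_comm
    rw [h1]
    have h2 : ∀ y ∈ iv k q.2.1, ∑ x ∈ iv k q.1, ∑ z ∈ iv k q.2.2, F (x, y, z) = _ :=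
      fun y _ => sum_sw ha hb k q.1 q.2.2 fun x z => F (x, y, z)
    rw [sum_congr rfl h2, sum_comm]
    refine sum_congr rfl fun i _ => ?_
    rw [sum_comm]
    rfl
  · have h1 : ∀ x ∈ iv k q.1, ∑ y ∈ iv k q.2.1, ∑ z ∈ iv k q.2.2, F (x, y, z) =
        ∑ y ∈ iv k q.2.1, (fun x y => ∑ z ∈ iv k q.2.2, F (x, y, z)) x y := fun x _ => rfl
    rw [sum_congr rfl h1, sum_sw ha hb k q.1 q.2.1 fun x y => ∑ z ∈ iv k q.2.2, F (x, y, z)]
    refine sum_congr rfl fun i _ => sum_congr rfl fun z _ => sum_congr rfl fun z' _ => ?_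
    by_cases h : Kp (cA 2 c) (cB 2 c) k q.1 q.2.1 i z z'
    · refine (if_pos h).trans (sum_congr rfl fun z'' _ => ?_)
      exact (if_pos h).symm
    · refine (if_neg h).trans (Eq.symm ?_)
      exact sum_eq_zero fun z'' _ => if_neg h

/-- **The vertices may be permuted**: the push-forward of a function on a cube is the sum of the
push-forwards, under the same form, of the functions of the pieces, on cubes of the same scale. -/
theorem pf_perm {c : Pt} (hc : Nz c) (t : Fin 3) (k : ℕ) (q : Pt) (w : Pt → ℝ) (s : ℤ) :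
    (∑ y ∈ cube3 k q, if el c y = s then w y else 0) =
      ∑ i ∈ IxP t c k q, ∑ z ∈ cube3 k (ctr t k q i),
        if el c z = s then cutP t c k q i w z else 0 := by
  rw [sum_perm hc t k q fun y => if el c y = s then w y else 0]
  refine sum_congr rfl fun i _ => sum_congr rfl fun z _ => ?_
  unfold cutP
  by_cases h : KP t c k q i z
  · rw [if_pos h, if_pos h]
    dsimp only
    rw [el_sb h]
  · rw [if_neg h, if_neg h, ite_self]

/-! ### edges -/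

/-- the edge opposite to the coordinate `j` -/
def eg (j : Fin 3) (u : Tri) : Pt → ℝ := match j with
  | 0 => e23 u.2.2
  | 1 => e13 u.2.1
  | 2 => e12 u.1

/-- the exchange of the two indices other than `t` -/
def tp (t j : Fin 3) : Fin 3 := match t, j with
  | 0, 0 => 0
  | 0, 1 => 2
  | 0, 2 => 1
  | 1, 0 => 2
  | 1, 1 => 1
  | 1, 2 => 0
  | 2, 0 => 1
  | 2, 1 => 0
  | 2, 2 => 2

theorem tp_tp (t j : Fin 3) : tp t (tp t j) = j := by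
  revert t j; decide

theorem tp_self (t : Fin 3) : tp t t = t := by
  revert t; decide

/-- the edge function cut on both coordinates, coordinates exchanged -/
def fB (a b : ℤ) (k : ℕ) (p q : ℤ) (i : ℤ × ℤ × ℤ × ℤ) (f : ℤ × ℤ → ℝ) (z : ℤ × ℤ) : ℝ :=
  if Kp a b k p q i z.1 z.2 then f (fr a b i.1 z.2, fr b a i.2.1 z.1) else 0

/-- the edge functions of a piece -/
def triP (t : Fin 3) (c : Pt) (k : ℕ) (q : Pt) (i : ℤ × ℤ × ℤ × ℤ) (u : Tri) : Tri := match t with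
  | 0 => (fun z => if Kc c.2.2 c.2.1 i.1 i.2.1 k q.2.2 z.2 then
        u.2.1 (z.1, fr c.2.2 c.2.1 i.2.1 z.2) else 0,
      fun z => if Kc c.2.1 c.2.2 i.2.1 i.1 k q.2.1 z.2 then
        u.1 (z.1, fr c.2.1 c.2.2 i.1 z.2) else 0,
      fB c.2.1 c.2.2 k q.2.1 q.2.2 i u.2.2)
  | 1 => (fun z => if Kc c.2.2 c.1 i.1 i.2.1 k q.2.2 z.1 then
        u.2.2 (z.2, fr c.2.2 c.1 i.2.1 z.1) else 0,
      fB c.1 c.2.2 k q.1 q.2.2 i u.2.1,
      fun z => if Kc c.1 c.2.2 i.2.1 i.1 k q.1 z.2 then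
        u.1 (fr c.1 c.2.2 i.1 z.2, z.1) else 0)
  | 2 => (fB c.1 c.2.1 k q.1 q.2.1 i u.1,
      fun z => if Kc c.2.1 c.1 i.1 i.2.1 k q.2.1 z.1 then
        u.2.2 (fr c.2.1 c.1 i.2.1 z.1, z.2) else 0,
      fun z => if Kc c.1 c.2.1 i.2.1 i.1 k q.1 z.1 then
        u.2.1 (fr c.1 c.2.1 i.1 z.1, z.2) else 0)

theorem ite3 {P P' : Prop} [Decidable P] [Decidable P'] [Decidable (P ∧ P')] (x y z : ℝ) :
    (if P ∧ P' then x * y * z else 0) =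
      (if P ∧ P' then x else 0) * (if P then z else 0) * (if P' then y else 0) := by
  by_cases h : P <;> by_cases h' : P' <;> simp [h, h']
  ring

/-- the function of a piece of an atom is an atom -/
theorem cutP_atm (t : Fin 3) (c : Pt) (k : ℕ) (q : Pt) (i : ℤ × ℤ × ℤ × ℤ) (u : Tri) (z : Pt) :
    cutP t c k q i (atm u) z = atm (triP t c k q i u) z := by
  obtain rfl | rfl | rfl := fin3 t
  · have h := ite3 (P := Kc c.2.2 c.2.1 i.1 i.2.1 k q.2.2 z.2.1)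
      (P' := Kc c.2.1 c.2.2 i.2.1 i.1 k q.2.1 z.2.2)
      (u.2.2 (fr c.2.1 c.2.2 i.1 z.2.2, fr c.2.2 c.2.1 i.2.1 z.2.1))
      (u.1 (z.1, fr c.2.1 c.2.2 i.1 z.2.2)) (u.2.1 (z.1, fr c.2.2 c.2.1 i.2.1 z.2.1))
    have e1 : cutP 0 c k q i (atm u) z = if Kc c.2.2 c.2.1 i.1 i.2.1 k q.2.2 z.2.1 ∧
        Kc c.2.1 c.2.2 i.2.1 i.1 k q.2.1 z.2.2 then
        u.1 (z.1, fr c.2.1 c.2.2 i.1 z.2.2) * u.2.1 (z.1, fr c.2.2 c.2.1 i.2.1 z.2.1) *
          u.2.2 (fr c.2.1 c.2.2 i.1 z.2.2, fr c.2.2 c.2.1 i.2.1 z.2.1) else 0 := rfl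
    have e2 : atm (triP 0 c k q i u) z =
      (if Kc c.2.2 c.2.1 i.1 i.2.1 k q.2.2 z.2.1 then
        u.2.1 (z.1, fr c.2.2 c.2.1 i.2.1 z.2.1) else 0) *
      (if Kc c.2.1 c.2.2 i.2.1 i.1 k q.2.1 z.2.2 then
        u.1 (z.1, fr c.2.1 c.2.2 i.1 z.2.2) else 0) *
      (if Kc c.2.2 c.2.1 i.1 i.2.1 k q.2.2 z.2.1 ∧ Kc c.2.1 c.2.2 i.2.1 i.1 k q.2.1 z.2.2 then
        u.2.2 (fr c.2.1 c.2.2 i.1 z.2.2, fr c.2.2 c.2.1 i.2.1 z.2.1) else 0) := rfl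
    rw [e1, e2]
    calc _ = (if Kc c.2.2 c.2.1 i.1 i.2.1 k q.2.2 z.2.1 ∧
        Kc c.2.1 c.2.2 i.2.1 i.1 k q.2.1 z.2.2 then
        u.2.2 (fr c.2.1 c.2.2 i.1 z.2.2, fr c.2.2 c.2.1 i.2.1 z.2.1) *
        u.1 (z.1, fr c.2.1 c.2.2 i.1 z.2.2) * u.2.1 (z.1, fr c.2.2 c.2.1 i.2.1 z.2.1) else 0) := by
          split_ifs
          · ring
          · rfl
      _ = _ := by rw [h]; ring
  · have h := ite3 (P := Kc c.2.2 c.1 i.1 i.2.1 k q.2.2 z.1)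
      (P' := Kc c.1 c.2.2 i.2.1 i.1 k q.1 z.2.2)
      (u.2.1 (fr c.1 c.2.2 i.1 z.2.2, fr c.2.2 c.1 i.2.1 z.1))
      (u.1 (fr c.1 c.2.2 i.1 z.2.2, z.2.1)) (u.2.2 (z.2.1, fr c.2.2 c.1 i.2.1 z.1))
    have e1 : cutP 1 c k q i (atm u) z = if Kc c.2.2 c.1 i.1 i.2.1 k q.2.2 z.1 ∧
        Kc c.1 c.2.2 i.2.1 i.1 k q.1 z.2.2 then
        u.1 (fr c.1 c.2.2 i.1 z.2.2, z.2.1) *
          u.2.1 (fr c.1 c.2.2 i.1 z.2.2, fr c.2.2 c.1 i.2.1 z.1) *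
          u.2.2 (z.2.1, fr c.2.2 c.1 i.2.1 z.1) else 0 := rfl
    have e2 : atm (triP 1 c k q i u) z =
      (if Kc c.2.2 c.1 i.1 i.2.1 k q.2.2 z.1 then
        u.2.2 (z.2.1, fr c.2.2 c.1 i.2.1 z.1) else 0) *
      (if Kc c.2.2 c.1 i.1 i.2.1 k q.2.2 z.1 ∧ Kc c.1 c.2.2 i.2.1 i.1 k q.1 z.2.2 then
        u.2.1 (fr c.1 c.2.2 i.1 z.2.2, fr c.2.2 c.1 i.2.1 z.1) else 0) *
      (if Kc c.1 c.2.2 i.2.1 i.1 k q.1 z.2.2 then
        u.1 (fr c.1 c.2.2 i.1 z.2.2, z.2.1) else 0) := rfl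
    rw [e1, e2]
    calc _ = (if Kc c.2.2 c.1 i.1 i.2.1 k q.2.2 z.1 ∧ Kc c.1 c.2.2 i.2.1 i.1 k q.1 z.2.2 then
        u.2.1 (fr c.1 c.2.2 i.1 z.2.2, fr c.2.2 c.1 i.2.1 z.1) *
        u.1 (fr c.1 c.2.2 i.1 z.2.2, z.2.1) * u.2.2 (z.2.1, fr c.2.2 c.1 i.2.1 z.1) else 0) := by
          split_ifs
          · ring
          · rfl
      _ = _ := by rw [h]; ring
  · have h := ite3 (P := Kc c.2.1 c.1 i.1 i.2.1 k q.2.1 z.1)
      (P' := Kc c.1 c.2.1 i.2.1 i.1 k q.1 z.2.1)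
      (u.1 (fr c.1 c.2.1 i.1 z.2.1, fr c.2.1 c.1 i.2.1 z.1))
      (u.2.1 (fr c.1 c.2.1 i.1 z.2.1, z.2.2)) (u.2.2 (fr c.2.1 c.1 i.2.1 z.1, z.2.2))
    have e1 : cutP 2 c k q i (atm u) z = if Kc c.2.1 c.1 i.1 i.2.1 k q.2.1 z.1 ∧
        Kc c.1 c.2.1 i.2.1 i.1 k q.1 z.2.1 then
        u.1 (fr c.1 c.2.1 i.1 z.2.1, fr c.2.1 c.1 i.2.1 z.1) *
          u.2.1 (fr c.1 c.2.1 i.1 z.2.1, z.2.2) *
          u.2.2 (fr c.2.1 c.1 i.2.1 z.1, z.2.2) else 0 := rfl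
    have e2 : atm (triP 2 c k q i u) z =
      (if Kc c.2.1 c.1 i.1 i.2.1 k q.2.1 z.1 ∧ Kc c.1 c.2.1 i.2.1 i.1 k q.1 z.2.1 then
        u.1 (fr c.1 c.2.1 i.1 z.2.1, fr c.2.1 c.1 i.2.1 z.1) else 0) *
      (if Kc c.2.1 c.1 i.1 i.2.1 k q.2.1 z.1 then
        u.2.2 (fr c.2.1 c.1 i.2.1 z.1, z.2.2) else 0) *
      (if Kc c.1 c.2.1 i.2.1 i.1 k q.1 z.2.1 then
        u.2.1 (fr c.1 c.2.1 i.1 z.2.1, z.2.2) else 0) := rfl
    rw [e1, e2, h]

/-- **The vertices of an atom may be permuted.** -/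
theorem a1_perm {c : Pt} (hc : Nz c) (t : Fin 3) (k : ℕ) (q : Pt) (u : Tri) (s : ℤ) :
    PL.H318.a1 c k (q, u) s =
      ∑ i ∈ IxP t c k q, PL.H318.a1 c k (ctr t k q i, triP t c k q i u) s := by
  unfold PL.H318.a1
  rw [pf_perm hc t k q (atm u) s]
  refine sum_congr rfl fun i _ => sum_congr rfl fun z _ => ?_
  rw [cutP_atm]

/-! ### averages over the edges do not increase -/

theorem sum12 (k : ℕ) (q : Pt) (G : ℤ → ℤ → ℝ) : ∑ y ∈ cube3 k q, G y.1 y.2.1 =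
    2 ^ k * ∑ x ∈ iv k q.1, ∑ y ∈ iv k q.2.1, G x y := by
  rw [sum_cube3 k q fun y => G y.1 y.2.1, mul_sum]
  refine sum_congr rfl fun x _ => ?_
  rw [mul_sum]
  refine sum_congr rfl fun y _ => ?_
  dsimp only
  rw [sum_const, card_iv, nsmul_eq_mul]
  push_cast; rfl

theorem sum13 (k : ℕ) (q : Pt) (G : ℤ → ℤ → ℝ) : ∑ y ∈ cube3 k q, G y.1 y.2.2 =
    2 ^ k * ∑ x ∈ iv k q.1, ∑ y ∈ iv k q.2.2, G x y := by
  rw [sum_cube3 k q fun y => G y.1 y.2.2, mul_sum]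
  refine sum_congr rfl fun x _ => ?_
  dsimp only
  rw [sum_const, card_iv, nsmul_eq_mul]
  push_cast; rfl

theorem sum23 (k : ℕ) (q : Pt) (G : ℤ → ℤ → ℝ) : ∑ y ∈ cube3 k q, G y.2.1 y.2.2 =
    2 ^ k * ∑ x ∈ iv k q.2.1, ∑ y ∈ iv k q.2.2, G x y := by
  rw [sum_cube3 k q fun y => G y.2.1 y.2.2]
  dsimp only
  rw [sum_const, card_iv, nsmul_eq_mul]
  push_cast; rfl

variable {θ : ℝ → ℝ}

theorem sum_one (h0 : θ 0 = 0) (hθ : ∀ x, 0 ≤ θ x) {a b r r' : ℤ} (hb : b ≠ 0) (k : ℕ) (p : ℤ)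
    (J I : Finset ℤ) (h : ℤ → ℤ → ℝ) :
    ∑ z ∈ J, ∑ y ∈ I, θ (if Kc a b r r' k p z then h (fr a b r' z) y else 0) ≤
      ∑ x ∈ iv k p, ∑ y ∈ I, θ (h x y) := by
  have h1 : ∀ z ∈ J, ∑ y ∈ I, θ (if Kc a b r r' k p z then h (fr a b r' z) y else 0) =
      if Kc a b r r' k p z then ∑ y ∈ I, θ (h (fr a b r' z) y) else 0 := by
    intro z _
    by_cases hz : Kc a b r r' k p z
    · simp only [if_pos hz]
    · simp only [if_neg hz, h0, sum_const_zero]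
  rw [sum_congr rfl h1]
  exact sum_fr_le hb k p J (f := fun x => ∑ y ∈ I, θ (h x y)) fun x =>
    sum_nonneg fun y _ => hθ _

theorem sum_two (h0 : θ 0 = 0) (hθ : ∀ x, 0 ≤ θ x) {a b : ℤ} (ha : a ≠ 0) (hb : b ≠ 0) (k : ℕ)
    (p q : ℤ) (i : ℤ × ℤ × ℤ × ℤ) (J J' : Finset ℤ) (f : ℤ × ℤ → ℝ) :
    ∑ z ∈ J, ∑ z' ∈ J', θ (fB a b k p q i f (z, z')) ≤
      ∑ x ∈ iv k p, ∑ y ∈ iv k q, θ (f (x, y)) := by
  have h1 := sum_fr2_le (a := b) (b := a) (r := i.1) (r' := i.2.1) (a' := a) (b' := b)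
    (s := i.2.1) (s' := i.1) ha hb k q p J J' (f := fun y x => θ (f (x, y))) fun _ _ => hθ _
  rw [sum_comm (s := iv k p)]
  refine le_trans (le_of_eq (sum_congr rfl fun z _ => sum_congr rfl fun z' _ => ?_)) h1
  by_cases h : Kp a b k p q i z z'
  · have e : fB a b k p q i f (z, z') = f (fr a b i.1 z', fr b a i.2.1 z) := if_pos h
    rw [e]
    exact (if_pos h).symm
  · have e : fB a b k p q i f (z, z') = 0 := if_neg h
    rw [e, h0]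
    exact (if_neg h).symm

/-- **averages of functions of the edges do not increase** -/
theorem avg_eg_le (h0 : θ 0 = 0) (hθ : ∀ x, 0 ≤ θ x) {c : Pt} (hc : Nz c) (t j : Fin 3) (k : ℕ)
    (q : Pt) (i : ℤ × ℤ × ℤ × ℤ) (u : Tri) :
    (avg (cube3 k (ctr t k q i)) fun z => θ (eg j (triP t c k q i u) z)) ≤
      avg (cube3 k q) fun y => θ (eg (tp t j) u y) := by
  obtain ⟨c1, c2, c3⟩ := hc
  unfold avg
  rw [card_cube3, card_cube3]
  refine mul_le_mul_of_nonneg_left ?_ (by positivity)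
  obtain rfl | rfl | rfl := fin3 t <;> obtain rfl | rfl | rfl := fin3 j
  · -- t = 0, j = 0
    refine (le_of_eq (sum23 k (ctr 0 k q i) fun x y =>
      θ (fB c.2.1 c.2.2 k q.2.1 q.2.2 i u.2.2 (x, y)))).trans
        (le_trans ?_ (le_of_eq (sum23 k q fun x y => θ (u.2.2 (x, y))).symm))
    exact mul_le_mul_of_nonneg_left (sum_two h0 hθ c2 c3 _ _ _ _ _ _ _) (by positivity)
  · -- t = 0, j = 1
    refine (le_of_eq (sum13 k (ctr 0 k q i) fun x y =>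
      θ (if Kc c.2.1 c.2.2 i.2.1 i.1 k q.2.1 y then u.1 (x, fr c.2.1 c.2.2 i.1 y) else 0))).trans
        (le_trans ?_ (le_of_eq (sum12 k q fun x y => θ (u.1 (x, y))).symm))
    refine mul_le_mul_of_nonneg_left ?_ (by positivity)
    rw [sum_comm, sum_comm (s := iv k q.1)]
    exact sum_one h0 hθ c3 k q.2.1 _ _ fun y x => u.1 (x, y)
  · -- t = 0, j = 2
    refine (le_of_eq (sum12 k (ctr 0 k q i) fun x y =>
      θ (if Kc c.2.2 c.2.1 i.1 i.2.1 k q.2.2 y then u.2.1 (x, fr c.2.2 c.2.1 i.2.1 y)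
        else 0))).trans (le_trans ?_ (le_of_eq (sum13 k q fun x y => θ (u.2.1 (x, y))).symm))
    refine mul_le_mul_of_nonneg_left ?_ (by positivity)
    rw [sum_comm, sum_comm (s := iv k q.1)]
    exact sum_one h0 hθ c2 k q.2.2 _ _ fun y x => u.2.1 (x, y)
  · -- t = 1, j = 0
    refine (le_of_eq (sum23 k (ctr 1 k q i) fun x y =>
      θ (if Kc c.1 c.2.2 i.2.1 i.1 k q.1 y then u.1 (fr c.1 c.2.2 i.1 y, x) else 0))).trans
        (le_trans ?_ (le_of_eq (sum12 k q fun x y => θ (u.1 (x, y))).symm))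
    refine mul_le_mul_of_nonneg_left ?_ (by positivity)
    rw [sum_comm]
    exact sum_one h0 hθ c3 k q.1 _ _ fun x y => u.1 (x, y)
  · -- t = 1, j = 1
    refine (le_of_eq (sum13 k (ctr 1 k q i) fun x y =>
      θ (fB c.1 c.2.2 k q.1 q.2.2 i u.2.1 (x, y)))).trans
        (le_trans ?_ (le_of_eq (sum13 k q fun x y => θ (u.2.1 (x, y))).symm))
    exact mul_le_mul_of_nonneg_left (sum_two h0 hθ c1 c3 _ _ _ _ _ _ _) (by positivity)
  · -- t = 1, j = 2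
    refine (le_of_eq (sum12 k (ctr 1 k q i) fun x y =>
      θ (if Kc c.2.2 c.1 i.1 i.2.1 k q.2.2 x then u.2.2 (y, fr c.2.2 c.1 i.2.1 x)
        else 0))).trans (le_trans ?_ (le_of_eq (sum23 k q fun x y => θ (u.2.2 (x, y))).symm))
    refine mul_le_mul_of_nonneg_left ?_ (by positivity)
    rw [sum_comm (s := iv k q.2.1)]
    exact sum_one h0 hθ c1 k q.2.2 _ _ fun y x => u.2.2 (x, y)
  · -- t = 2, j = 0
    refine (le_of_eq (sum23 k (ctr 2 k q i) fun x y =>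
      θ (if Kc c.1 c.2.1 i.2.1 i.1 k q.1 x then u.2.1 (fr c.1 c.2.1 i.1 x, y) else 0))).trans
        (le_trans ?_ (le_of_eq (sum13 k q fun x y => θ (u.2.1 (x, y))).symm))
    exact mul_le_mul_of_nonneg_left
      (sum_one h0 hθ c2 k q.1 _ _ fun x y => u.2.1 (x, y)) (by positivity)
  · -- t = 2, j = 1
    refine (le_of_eq (sum13 k (ctr 2 k q i) fun x y =>
      θ (if Kc c.2.1 c.1 i.1 i.2.1 k q.2.1 x then u.2.2 (fr c.2.1 c.1 i.2.1 x, y)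
        else 0))).trans (le_trans ?_ (le_of_eq (sum23 k q fun x y => θ (u.2.2 (x, y))).symm))
    exact mul_le_mul_of_nonneg_left
      (sum_one h0 hθ c1 k q.2.1 _ _ fun x y => u.2.2 (x, y)) (by positivity)
  · -- t = 2, j = 2
    refine (le_of_eq (sum12 k (ctr 2 k q i) fun x y =>
      θ (fB c.1 c.2.1 k q.1 q.2.1 i u.1 (x, y)))).trans
        (le_trans ?_ (le_of_eq (sum12 k q fun x y => θ (u.1 (x, y))).symm))
    exact mul_le_mul_of_nonneg_left (sum_two h0 hθ c1 c2 _ _ _ _ _ _ _) (by positivity)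

section

variable {c : Pt} (hc : Nz c) (t j : Fin 3) (k : ℕ) (q : Pt) (i : ℤ × ℤ × ℤ × ℤ) (u : Tri)
include hc

theorem n2_eg_le : n2 (cube3 k (ctr t k q i)) (eg j (triP t c k q i u)) ≤
    n2 (cube3 k q) (eg (tp t j) u) :=
  Real.sqrt_le_sqrt (avg_eg_le (θ := fun x => x ^ 2) (by norm_num) (fun _ => sq_nonneg _)
    hc t j k q i u)

theorem n4_eg_le : n4 (cube3 k (ctr t k q i)) (eg j (triP t c k q i u)) ≤
    n4 (cube3 k q) (eg (tp t j) u) :=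
  Real.sqrt_le_sqrt (Real.sqrt_le_sqrt (avg_eg_le (θ := fun x => x ^ 4) (by norm_num)
    (fun _ => by positivity) hc t j k q i u))

theorem nN_eg_le : nN (cube3 k (ctr t k q i)) (eg j (triP t c k q i u)) ≤
    nN (cube3 k q) (eg (tp t j) u) :=
  Real.sqrt_le_sqrt (mul_le_mul (n2_eg_le hc t j k q i u) (n4_eg_le hc t j k q i u)
    (n4_nonneg _ _) (n2_nonneg _ _))

end

/-- the pair weight with the `L²` norm on the edge `j` -/
def pwj (j : Fin 3) (Q : Finset Pt) (u : Tri) : ℝ := match j with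
  | 0 => nN Q (eg 2 u) * nN Q (eg 1 u) * n2 Q (eg 0 u)
  | 1 => nN Q (eg 2 u) * nN Q (eg 0 u) * n2 Q (eg 1 u)
  | 2 => nN Q (eg 1 u) * nN Q (eg 0 u) * n2 Q (eg 2 u)

theorem pw3_eq (Q : Finset Pt) (u : Tri) : pw3 Q u = pwj 0 Q u + pwj 1 Q u + pwj 2 Q u := rfl

theorem pwj_nonneg (j : Fin 3) (Q : Finset Pt) (u : Tri) : 0 ≤ pwj j Q u := by
  obtain rfl | rfl | rfl := fin3 j <;>
    exact mul_nonneg (mul_nonneg (nN_nonneg _ _) (nN_nonneg _ _)) (n2_nonneg _ _)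

theorem mul3_le {x y z x' y' z' : ℝ} (hx : x ≤ x') (hy : y ≤ y') (hz : z ≤ z') (hx0 : 0 ≤ x)
    (hy0 : 0 ≤ y) (hz0 : 0 ≤ z) : x * y * z ≤ x' * y' * z' :=
  mul_le_mul (mul_le_mul hx hy hy0 (hx0.trans hx)) hz hz0
    (mul_nonneg (hx0.trans hx) (hy0.trans hy))

/-- **the three parts of the pair weight are permuted** -/
theorem pwj_le {c : Pt} (hc : Nz c) (t j : Fin 3) (k : ℕ) (q : Pt) (i : ℤ × ℤ × ℤ × ℤ)
    (u : Tri) : pwj j (cube3 k (ctr t k q i)) (triP t c k q i u) ≤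
      pwj (tp t j) (cube3 k q) u := by
  have a := fun l => nN_eg_le hc t l k q i u
  have b := fun l => n2_eg_le hc t l k q i u
  have a0 : ∀ l, 0 ≤ nN (cube3 k (ctr t k q i)) (eg l (triP t c k q i u)) := fun l =>
    nN_nonneg _ _
  have b0 : ∀ l, 0 ≤ n2 (cube3 k (ctr t k q i)) (eg l (triP t c k q i u)) := fun l =>
    n2_nonneg _ _
  obtain rfl | rfl | rfl := fin3 t <;> obtain rfl | rfl | rfl := fin3 j
  · refine (mul3_le (a 2) (a 1) (b 0) (a0 2) (a0 1) (b0 0)).trans (le_of_eq ?_)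
    show nN _ (eg 1 u) * nN _ (eg 2 u) * n2 _ (eg 0 u) = nN _ (eg 2 u) * nN _ (eg 1 u) * _
    ring
  · refine (mul3_le (a 2) (a 0) (b 1) (a0 2) (a0 0) (b0 1)).trans (le_of_eq ?_)
    rfl
  · refine (mul3_le (a 1) (a 0) (b 2) (a0 1) (a0 0) (b0 2)).trans (le_of_eq ?_)
    rfl
  · refine (mul3_le (a 2) (a 1) (b 0) (a0 2) (a0 1) (b0 0)).trans (le_of_eq ?_)
    show nN _ (eg 0 u) * nN _ (eg 1 u) * n2 _ (eg 2 u) = nN _ (eg 1 u) * nN _ (eg 0 u) * _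
    ring
  · refine (mul3_le (a 2) (a 0) (b 1) (a0 2) (a0 0) (b0 1)).trans (le_of_eq ?_)
    show nN _ (eg 0 u) * nN _ (eg 2 u) * n2 _ (eg 1 u) = nN _ (eg 2 u) * nN _ (eg 0 u) * _
    ring
  · refine (mul3_le (a 1) (a 0) (b 2) (a0 1) (a0 0) (b0 2)).trans (le_of_eq ?_)
    show nN _ (eg 1 u) * nN _ (eg 2 u) * n2 _ (eg 0 u) = nN _ (eg 2 u) * nN _ (eg 1 u) * _
    ring
  · refine (mul3_le (a 2) (a 1) (b 0) (a0 2) (a0 1) (b0 0)).trans (le_of_eq ?_)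
    rfl
  · refine (mul3_le (a 2) (a 0) (b 1) (a0 2) (a0 0) (b0 1)).trans (le_of_eq ?_)
    rfl
  · refine (mul3_le (a 1) (a 0) (b 2) (a0 1) (a0 0) (b0 2)).trans (le_of_eq ?_)
    show nN _ (eg 0 u) * nN _ (eg 1 u) * n2 _ (eg 2 u) = nN _ (eg 1 u) * nN _ (eg 0 u) * _
    ring

theorem pw3_perm_le {c : Pt} (hc : Nz c) (t : Fin 3) (k : ℕ) (q : Pt) (i : ℤ × ℤ × ℤ × ℤ)
    (u : Tri) : pw3 (cube3 k (ctr t k q i)) (triP t c k q i u) ≤ pw3 (cube3 k q) u := by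
  rw [pw3_eq, pw3_eq]
  have h0 := pwj_le hc t 0 k q i u
  have h1 := pwj_le hc t 1 k q i u
  have h2 := pwj_le hc t 2 k q i u
  obtain rfl | rfl | rfl := fin3 t
  · change _ ≤ pwj 0 _ _ at h0
    change _ ≤ pwj 2 _ _ at h1
    change _ ≤ pwj 1 _ _ at h2
    linarith
  · change _ ≤ pwj 2 _ _ at h0
    change _ ≤ pwj 1 _ _ at h1
    change _ ≤ pwj 0 _ _ at h2
    linarith
  · change _ ≤ pwj 1 _ _ at h0
    change _ ≤ pwj 0 _ _ at h1
    change _ ≤ pwj 2 _ _ at h2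
    linarith

/-- **the pair weight does not increase** -/
theorem wP_perm_le {δ : ℝ} (hδ : 0 ≤ δ) {c : Pt} (hc : Nz c) (t : Fin 3) (k : ℕ) (q : Pt)
    (i : ℤ × ℤ × ℤ × ℤ) (u : Tri) :
    wP δ (cube3 k (ctr t k q i)) (triP t c k q i u) ≤ wP δ (cube3 k q) u := by
  unfold wP
  rw [card_cube3, card_cube3]
  exact mul_le_mul_of_nonneg_left (pw3_perm_le hc t k q i u) (by positivity)

/-- sums of non negative functions do not increase on a piece -/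
theorem sum_cutP_le {c : Pt} (hc : Nz c) (t : Fin 3) (k : ℕ) (q : Pt) {w : Pt → ℝ}
    (hw : ∀ y, 0 ≤ w y) {i : ℤ × ℤ × ℤ × ℤ} (hi : i ∈ IxP t c k q) :
    ∑ z ∈ cube3 k (ctr t k q i), cutP t c k q i w z ≤ ∑ y ∈ cube3 k q, w y := by
  rw [sum_perm hc t k q w]
  refine single_le_sum (f := fun i => ∑ z ∈ cube3 k (ctr t k q i), cutP t c k q i w z)
    (fun i _ => sum_nonneg fun z _ => ?_) hi
  unfold cutP
  split_ifs
  · exact hw _
  · exact le_rfl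

end

end Vale.Agent.P141.H639
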