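import Vale.Agent.P141.PL.H315.ConcreteProc
import Vale.Agent.P141.PL.Defs1

/-!
# P141, line W: the exchange of two coordinates

`sw a b x y` is an involution of `ℤ²` which keeps `a x + b y`; on a residue class its first
component depends on `y` only and the second one on `x` only.  `sum_sw`: a sum over a box of the
scale `k` is a sum over boxes of the same scale of the substituted function, cut to the classes
and to the old intervals.
-/

namespace Vale.Agent.P141.H639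

open Finset
open Vale.Agent.P141.PL.H315 (iv mem_iv self_mem_iv card_iv iv_eq cube3 mem_cube3 card_cube3)
open Vale.Agent.P141.PL (Pt el)

noncomputable section

/-- the exchange of two coordinates -/
def sw (a b x y : ℤ) : ℤ × ℤ := (b * (y / a) + x % b, a * (x / b) + y % a)

theorem sw_ediv1 {a b : ℤ} (hb : b ≠ 0) (x y : ℤ) : (sw a b x y).1 / b = y / a := by
  unfold sw
  rw [Int.mul_add_ediv_left _ _ hb, Int.ediv_eq_zero_of_lt_abs (Int.emod_nonneg _ hb)
    (Int.emod_lt_abs _ hb), add_zero]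

theorem sw_ediv2 {a b : ℤ} (ha : a ≠ 0) (x y : ℤ) : (sw a b x y).2 / a = x / b := by
  unfold sw
  rw [Int.mul_add_ediv_left _ _ ha, Int.ediv_eq_zero_of_lt_abs (Int.emod_nonneg _ ha)
    (Int.emod_lt_abs _ ha), add_zero]

theorem sw_emod1 (a b x y : ℤ) : (sw a b x y).1 % b = x % b := by
  unfold sw
  simp [Int.add_emod, Int.mul_emod_right]

theorem sw_emod2 (a b x y : ℤ) : (sw a b x y).2 % a = y % a := by
  unfold sw
  simp [Int.add_emod, Int.mul_emod_right]

theorem sw_sw {a b : ℤ} (ha : a ≠ 0) (hb : b ≠ 0) (x y : ℤ) :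
    sw a b (sw a b x y).1 (sw a b x y).2 = (x, y) := by
  have h1 := sw_ediv1 (a := a) hb x y
  have h2 := sw_ediv2 (b := b) ha x y
  have h3 := sw_emod1 a b x y
  have h4 := sw_emod2 a b x y
  have e : sw a b (sw a b x y).1 (sw a b x y).2 =
      (b * ((sw a b x y).2 / a) + (sw a b x y).1 % b,
        a * ((sw a b x y).1 / b) + (sw a b x y).2 % a) := rfl
  rw [e, h1, h2, h3, h4, Int.mul_ediv_add_emod, Int.mul_ediv_add_emod]

theorem sw_lin (a b x y : ℤ) :
    a * (sw a b x y).1 + b * (sw a b x y).2 = a * x + b * y := by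
  have h1 := Int.mul_ediv_add_emod x b
  have h2 := Int.mul_ediv_add_emod y a
  unfold sw
  dsimp only
  nlinarith [congrArg (fun t => a * t) h1, congrArg (fun t => b * t) h2]

/-! ### the substitution in one coordinate -/

/-- the substitution in one coordinate, on the class `z % a = r` -/
def fr (a b r' z : ℤ) : ℤ := b * (z / a) + r'

/-- the class and the old interval -/
def Kc (a b r r' : ℤ) (k : ℕ) (p z : ℤ) : Prop := z % a = r ∧ fr a b r' z ∈ iv k p

instance (a b r r' : ℤ) (k : ℕ) (p z : ℤ) : Decidable (Kc a b r r' k p z) := by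
  unfold Kc; infer_instance

theorem fr_inj {a b r r' : ℤ} (hb : b ≠ 0) {k : ℕ} {p z z' : ℤ} (h : Kc a b r r' k p z)
    (h' : Kc a b r r' k p z') (e : fr a b r' z = fr a b r' z') : z = z' := by
  unfold fr at e
  have h1 : z / a = z' / a := by
    have : b * (z / a) = b * (z' / a) := by linarith
    exact mul_left_cancel₀ hb this
  rw [← Int.mul_ediv_add_emod z a, ← Int.mul_ediv_add_emod z' a, h1, h.1, h'.1]

/-- sums in one variable do not increase -/
theorem sum_fr_le {a b r r' : ℤ} (hb : b ≠ 0) (k : ℕ) (p : ℤ) (J : Finset ℤ) {f : ℤ → ℝ}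
    (hf : ∀ x, 0 ≤ f x) :
    ∑ z ∈ J, (if Kc a b r r' k p z then f (fr a b r' z) else 0) ≤ ∑ x ∈ iv k p, f x := by
  rw [← sum_filter]
  have h1 : ∑ z ∈ J.filter (fun z => Kc a b r r' k p z), f (fr a b r' z) =
      ∑ x ∈ (J.filter (fun z => Kc a b r r' k p z)).image (fr a b r'), f x := by
    rw [sum_image]
    intro z hz z' hz' e
    exact fr_inj hb (mem_filter.1 hz).2 (mem_filter.1 hz').2 e
  rw [h1]
  refine sum_le_sum_of_subset_of_nonneg ?_ fun x _ _ => hf x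
  intro x hx
  obtain ⟨z, hz, rfl⟩ := mem_image.1 hx
  exact (mem_filter.1 hz).2.2

/-- sums in two variables do not increase -/
theorem sum_fr2_le {a b r r' a' b' s s' : ℤ} (hb : b ≠ 0) (hb' : b' ≠ 0) (k : ℕ) (p p' : ℤ)
    (J J' : Finset ℤ) {f : ℤ → ℤ → ℝ} (hf : ∀ x y, 0 ≤ f x y) :
    ∑ z ∈ J, ∑ z' ∈ J', (if Kc a b r r' k p z ∧ Kc a' b' s s' k p' z' then
      f (fr a b r' z) (fr a' b' s' z') else 0) ≤ ∑ x ∈ iv k p, ∑ y ∈ iv k p', f x y := by
  have h1 : ∀ z ∈ J, ∑ z' ∈ J', (if Kc a b r r' k p z ∧ Kc a' b' s s' k p' z' then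
      f (fr a b r' z) (fr a' b' s' z') else 0) ≤
      if Kc a b r r' k p z then ∑ y ∈ iv k p', f (fr a b r' z) y else 0 := by
    intro z _
    by_cases h : Kc a b r r' k p z
    · rw [if_pos h]
      simp only [h, true_and]
      exact sum_fr_le hb' k p' J' fun y => hf _ y
    · rw [if_neg h]
      simp only [h, false_and, if_false, sum_const_zero, le_refl]
  refine (sum_le_sum h1).trans ?_
  exact sum_fr_le hb k p J (f := fun x => ∑ y ∈ iv k p', f x y) fun x =>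
    sum_nonneg fun y _ => hf x y

/-! ### the boxes -/

/-- the indices of the intervals of the new coordinate -/
def bxI (a b : ℤ) (k : ℕ) (p : ℤ) : Finset ℤ :=
  Icc (a * (p / b) / 2 ^ k - 2 * |a|) (a * (p / b) / 2 ^ k + 2 * |a|)

theorem card_bxI (a b : ℤ) (k : ℕ) (p : ℤ) : ((bxI a b k p).card : ℤ) = 4 * |a| + 1 := by
  unfold bxI
  rw [Int.card_Icc, Int.toNat_of_nonneg]
  · ring
  · have := abs_nonneg a
    linarith

theorem abs_ediv_sub_le {b : ℤ} (hb : b ≠ 0) {k : ℕ} {x p : ℤ} (h : x ∈ iv k p) :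
    |x / b - p / b| ≤ 2 ^ k := by
  have hk : (0 : ℤ) < 2 ^ k := by positivity
  have h1 := mem_iv.1 h
  have e1 := Int.mul_ediv_add_emod x (2 ^ k)
  have e2 := Int.mul_ediv_add_emod p (2 ^ k)
  have m1 := Int.emod_nonneg x hk.ne'
  have m2 := Int.emod_lt_of_pos x hk
  have m3 := Int.emod_nonneg p hk.ne'
  have m4 := Int.emod_lt_of_pos p hk
  have hxp : |x - p| ≤ 2 ^ k - 1 := by
    rw [h1] at e1
    rw [abs_le]
    constructor <;> linarith
  have f1 := Int.mul_ediv_add_emod x b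
  have f2 := Int.mul_ediv_add_emod p b
  have n1 := Int.emod_nonneg x hb
  have n2 := Int.emod_lt_abs x hb
  have n3 := Int.emod_nonneg p hb
  have n4 := Int.emod_lt_abs p hb
  have hb1 : 1 ≤ |b| := Int.one_le_abs hb
  by_contra hc
  have hc' : 2 ^ k + 1 ≤ |x / b - p / b| := by
    have := not_le.1 hc
    omega
  have h2 : b * (x / b - p / b) = (x - p) - (x % b - p % b) := by linarith
  have h3 : |b| * |x / b - p / b| = |(x - p) - (x % b - p % b)| := by
    rw [← abs_mul, h2]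
  have h4 : |(x - p) - (x % b - p % b)| ≤ |x - p| + |x % b - p % b| := abs_sub _ _
  have h5 : |x % b - p % b| ≤ |b| - 1 := by
    rw [abs_le]; constructor <;> linarith
  have h6 : |b| * (2 ^ k + 1) ≤ |b| * |x / b - p / b| :=
    mul_le_mul_of_nonneg_left hc' (abs_nonneg b)
  nlinarith

theorem mem_bxI {a b r r' : ℤ} (hb : b ≠ 0) (ha : a ≠ 0) (hr' : 0 ≤ r' ∧ r' < |b|) {k : ℕ}
    {p z : ℤ} (h : Kc a b r r' k p z) : z / 2 ^ k ∈ bxI a b k p := by
  have hk : (0 : ℤ) < 2 ^ k := by positivity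
  have hk1 : (1 : ℤ) ≤ 2 ^ k := hk
  obtain ⟨h1, h2⟩ := h
  have e1 : fr a b r' z / b = z / a := by
    unfold fr
    rw [Int.mul_add_ediv_left _ _ hb, Int.ediv_eq_zero_of_lt_abs hr'.1 hr'.2, add_zero]
  have h3 := abs_ediv_sub_le hb h2
  rw [e1] at h3
  have h4 := Int.mul_ediv_add_emod z a
  have n1 := Int.emod_nonneg z ha
  have n2 := Int.emod_lt_abs z ha
  have ha1 : 1 ≤ |a| := Int.one_le_abs ha
  have h5 : |a * (z / a - p / b)| ≤ |a| * 2 ^ k := by
    rw [abs_mul]; exact mul_le_mul_of_nonneg_left h3 (abs_nonneg a)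
  have h6 := abs_le.1 h5
  have h7 : |a| - 1 ≤ |a| * 2 ^ k := by nlinarith
  have h8 : z = a * (p / b) + (a * (z / a - p / b) + z % a) := by linarith
  have hup : z ≤ a * (p / b) + 2 ^ k * (2 * |a|) := by
    rw [h8]; linarith [h6.2]
  have hlo : a * (p / b) + 2 ^ k * (-(2 * |a|)) ≤ z := by
    rw [h8]; nlinarith [h6.1]
  unfold bxI
  rw [mem_Icc]
  constructor
  · have := Int.ediv_le_ediv hk hlo
    rw [Int.add_mul_ediv_left _ _ hk.ne'] at this
    linarith
  · have := Int.ediv_le_ediv hk hup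
    rw [Int.add_mul_ediv_left _ _ hk.ne'] at this
    linarith

/-- the family of the pieces: two classes, two intervals -/
def Ix (a b : ℤ) (k : ℕ) (p q : ℤ) : Finset (ℤ × ℤ × ℤ × ℤ) :=
  Ico 0 |b| ×ˢ Ico 0 |a| ×ˢ bxI b a k q ×ˢ bxI a b k p

theorem card_Ix (a b : ℤ) (k : ℕ) (p q : ℤ) :
    ((Ix a b k p q).card : ℤ) = |b| * (|a| * ((4 * |b| + 1) * (4 * |a| + 1))) := by
  unfold Ix
  rw [card_product, card_product, card_product]
  push_cast
  rw [card_bxI, card_bxI, Int.card_Ico, Int.card_Ico, sub_zero, sub_zero,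
    Int.toNat_of_nonneg (abs_nonneg _), Int.toNat_of_nonneg (abs_nonneg _)]

theorem card_Ix_le {a b : ℤ} {M : ℕ} (ha : |a| ≤ M) (hb : |b| ≤ M) (k : ℕ) (p q : ℤ) :
    (Ix a b k p q).card ≤ M ^ 2 * (4 * M + 1) ^ 2 := by
  have h := card_Ix a b k p q
  have ha0 := abs_nonneg a
  have hb0 := abs_nonneg b
  have h1 : ((Ix a b k p q).card : ℤ) ≤ M * (M * ((4 * M + 1) * (4 * M + 1))) := by
    rw [h]; gcongr
  have h2 : ((Ix a b k p q).card : ℤ) ≤ ((M ^ 2 * (4 * M + 1) ^ 2 : ℕ) : ℤ) := by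
    refine h1.trans (le_of_eq ?_)
    push_cast; ring
  exact_mod_cast h2

/-- the condition of a piece -/
def Kp (a b : ℤ) (k : ℕ) (p q : ℤ) (i : ℤ × ℤ × ℤ × ℤ) (z z' : ℤ) : Prop :=
  Kc b a i.1 i.2.1 k q z ∧ Kc a b i.2.1 i.1 k p z'

instance (a b : ℤ) (k : ℕ) (p q : ℤ) (i : ℤ × ℤ × ℤ × ℤ) (z z' : ℤ) :
    Decidable (Kp a b k p q i z z') := by
  unfold Kp; infer_instance

theorem mem_iv_mul {k : ℕ} {j z : ℤ} : z ∈ iv k (2 ^ k * j) ↔ z / 2 ^ k = j := by
  rw [mem_iv, Int.mul_ediv_cancel_left _ (by positivity)]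

/-- the linear form on a piece -/
theorem lin_piece {a b : ℤ} {k : ℕ} {p q : ℤ} {i : ℤ × ℤ × ℤ × ℤ} {z z' : ℤ}
    (h : Kp a b k p q i z z') :
    a * fr a b i.1 z' + b * fr b a i.2.1 z = a * z + b * z' := by
  have h1 := h.1.1
  have h2 := h.2.1
  have e1 := Int.mul_ediv_add_emod z b
  have e2 := Int.mul_ediv_add_emod z' a
  rw [h1] at e1
  rw [h2] at e2
  unfold fr
  linear_combination a * e1 + b * e2

/-- **The exchange of two coordinates in a sum over a box.** -/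
theorem sum_sw {a b : ℤ} (ha : a ≠ 0) (hb : b ≠ 0) (k : ℕ) (p q : ℤ) (F : ℤ → ℤ → ℝ) :
    ∑ x ∈ iv k p, ∑ y ∈ iv k q, F x y =
      ∑ i ∈ Ix a b k p q, ∑ z ∈ iv k (2 ^ k * i.2.2.1), ∑ z' ∈ iv k (2 ^ k * i.2.2.2),
        if Kp a b k p q i z z' then F (fr a b i.1 z') (fr b a i.2.1 z) else 0 := by
  classical
  rw [← sum_product' (f := fun x y => F x y)]
  have hmaps : ∀ x ∈ iv k p ×ˢ iv k q, ((sw a b x.1 x.2).1 % b, (sw a b x.1 x.2).2 % a,
      (sw a b x.1 x.2).1 / 2 ^ k, (sw a b x.1 x.2).2 / 2 ^ k) ∈ Ix a b k p q := by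
    intro x hx
    rw [mem_product] at hx
    have e1 : fr b a ((sw a b x.1 x.2).2 % a) (sw a b x.1 x.2).1 = x.2 := by
      have := congrArg Prod.snd (sw_sw ha hb x.1 x.2)
      exact this
    have e2 : fr a b ((sw a b x.1 x.2).1 % b) (sw a b x.1 x.2).2 = x.1 := by
      have := congrArg Prod.fst (sw_sw ha hb x.1 x.2)
      exact this
    have k1 : Kc b a ((sw a b x.1 x.2).1 % b) ((sw a b x.1 x.2).2 % a) k q
        (sw a b x.1 x.2).1 := ⟨rfl, by rw [e1]; exact hx.2⟩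
    have k2 : Kc a b ((sw a b x.1 x.2).2 % a) ((sw a b x.1 x.2).1 % b) k p
        (sw a b x.1 x.2).2 := ⟨rfl, by rw [e2]; exact hx.1⟩
    unfold Ix
    rw [mem_product, mem_product, mem_product]
    exact ⟨mem_Ico.2 ⟨Int.emod_nonneg _ hb, Int.emod_lt_abs _ hb⟩,
      mem_Ico.2 ⟨Int.emod_nonneg _ ha, Int.emod_lt_abs _ ha⟩,
      mem_bxI ha hb ⟨Int.emod_nonneg _ ha, Int.emod_lt_abs _ ha⟩ k1,
      mem_bxI hb ha ⟨Int.emod_nonneg _ hb, Int.emod_lt_abs _ hb⟩ k2⟩
  rw [← sum_fiberwise_of_maps_to hmaps]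
  refine sum_congr rfl fun i hi => ?_
  unfold Ix at hi
  rw [mem_product, mem_product, mem_product] at hi
  obtain ⟨hi1, hi2, -, -⟩ := hi
  have hi1' := mem_Ico.1 hi1
  have hi2' := mem_Ico.1 hi2
  rw [← sum_product' (f := fun z z' =>
    if Kp a b k p q i z z' then F (fr a b i.1 z') (fr b a i.2.1 z) else 0), ← sum_filter]
  refine sum_bij' (fun x _ => sw a b x.1 x.2) (fun z _ => sw a b z.1 z.2) ?_ ?_ ?_ ?_ ?_
  · intro x hx
    rw [mem_filter, mem_product] at hx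
    obtain ⟨⟨hx1, hx2⟩, hx3⟩ := hx
    have g1 : (sw a b x.1 x.2).1 % b = i.1 := congrArg (fun t => t.1) hx3
    have g2 : (sw a b x.1 x.2).2 % a = i.2.1 := congrArg (fun t => t.2.1) hx3
    have g3 : (sw a b x.1 x.2).1 / 2 ^ k = i.2.2.1 := congrArg (fun t => t.2.2.1) hx3
    have g4 : (sw a b x.1 x.2).2 / 2 ^ k = i.2.2.2 := congrArg (fun t => t.2.2.2) hx3
    have e1 : fr b a i.2.1 (sw a b x.1 x.2).1 = x.2 := by
      have := congrArg Prod.snd (sw_sw ha hb x.1 x.2)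
      rw [← g2]; exact this
    have e2 : fr a b i.1 (sw a b x.1 x.2).2 = x.1 := by
      have := congrArg Prod.fst (sw_sw ha hb x.1 x.2)
      rw [← g1]; exact this
    rw [mem_filter, mem_product]
    exact ⟨⟨mem_iv_mul.2 g3, mem_iv_mul.2 g4⟩, ⟨g1, by rw [e1]; exact hx2⟩,
      ⟨g2, by rw [e2]; exact hx1⟩⟩
  · intro z hz
    rw [mem_filter, mem_product] at hz
    obtain ⟨⟨hz1, hz2⟩, ⟨k1, k2⟩, k3, k4⟩ := hz
    have e1 : sw a b z.1 z.2 = (fr a b i.1 z.2, fr b a i.2.1 z.1) := by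
      unfold sw fr
      rw [k1, k3]
    have e2 := sw_sw ha hb z.1 z.2
    rw [mem_filter, mem_product]
    refine ⟨⟨?_, ?_⟩, ?_⟩
    · rw [e1]; exact k4
    · rw [e1]; exact k2
    · rw [e2]
      exact Prod.ext k1 (Prod.ext k3 (Prod.ext (mem_iv_mul.1 hz1) (mem_iv_mul.1 hz2)))
  · intro x _
    exact sw_sw ha hb x.1 x.2
  · intro z _
    exact sw_sw ha hb z.1 z.2
  · intro x hx
    rw [mem_filter, mem_product] at hx
    obtain ⟨⟨hx1, hx2⟩, hx3⟩ := hx
    have g1 : (sw a b x.1 x.2).1 % b = i.1 := congrArg (fun t => t.1) hx3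
    have g2 : (sw a b x.1 x.2).2 % a = i.2.1 := congrArg (fun t => t.2.1) hx3
    have e1 : fr b a i.2.1 (sw a b x.1 x.2).1 = x.2 := by
      have := congrArg Prod.snd (sw_sw ha hb x.1 x.2)
      rw [← g2]; exact this
    have e2 : fr a b i.1 (sw a b x.1 x.2).2 = x.1 := by
      have := congrArg Prod.fst (sw_sw ha hb x.1 x.2)
      rw [← g1]; exact this
    show F x.1 x.2 = F (fr a b i.1 (sw a b x.1 x.2).2) (fr b a i.2.1 (sw a b x.1 x.2).1)
    rw [e1, e2]

end

end Vale.Agent.P141.H639
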