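import Vale.Agent.P141.H347.Tr2
import Vale.Agent.P141.H572.CE0
import Vale.Agent.P141.H414.En7
import Vale.Agent.P141.H639.PermCost

/-!
# P141: from the boxes to the line for a CLASS of functions

`ClsF K Cl`: a class of functions of three coordinates, used on the cubes of the scale `K`, closed
under translation and cut.  If every function of the class costs at most `X` on the boxes (572's
`cosF`, companions of the role `i`, depending on the node), then the push-forward of a function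
which is in the class in the coordinates of the role `i` costs at most `8 X` at the nodes
(`node_cls`).
`cosF_t12`, `cosF_t23`: the transpositions for arbitrary functions.
-/

namespace Vale.Agent.P141.H639

open Finset Vale.Agent.P141.PL Vale.Agent.P141.PL.H560
open Vale.Agent.P141.PL.H321 (t12 t23)
open Vale.Agent.P141.PL.H314 (nd)
open Vale.Agent.P141.PL.H315 (put cube3)
open Vale.Agent.P141.H347.Tr (nu cc wi wi_wi wi_inj cmN invN transfer_gen node_sum_eqN)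
open Vale.Agent.P141.H572 (cosF)

noncomputable section

/-- a class of functions closed under translation and cut -/
def ClsF (K : ℕ) (Cl : Pt → (Pt → ℝ) → Prop) : Prop :=
  ∀ (c : LF) (x y : Pt) (f : Pt → ℝ) (q : ℤ × ℤ), Cl x f →
    Cl y fun p => cut K (cx K x) f (sh c q.1 q.2 p)

/-- the coordinates of the role `i` -/
def rp (i : Fin 4) (x : Pt) : Pt := match i with
  | 0 => x
  | 1 => x
  | 2 => t12 x
  | 3 => t12 (t23 x)

/-- the inverse of `rp` -/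
def rpi (i : Fin 4) (x : Pt) : Pt := match i with
  | 0 => x
  | 1 => x
  | 2 => t12 x
  | 3 => t23 (t12 x)

/-- the cost hypothesis of a class in the position of role `0` -/
def CostC (c : LF) (o : ℤ) (K : ℕ) (X : ℝ) (Cl : Pt → (Pt → ℝ) → Prop)
    (F1 F2 F3 : ℕ → ℤ → Pt → ℝ) : Prop :=
  ∀ (x : Pt) (f : Pt → ℝ), Cl x f → cosF o K x f (fun k m => F1 k (nu c m))
    (fun k m => F2 k (nu c m)) (fun k m => F3 k (nu c m)) ≤ X

variable {K : ℕ} {Cl : Pt → (Pt → ℝ) → Prop}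

/-- **Transfer, role 0.** -/
theorem transfer0C (c : LF) (hCl : ClsF K Cl) {o : ℤ} {X : ℝ} {F1 F2 F3 : ℕ → ℤ → Pt → ℝ}
    (hI : ∀ k v, Inv c (F1 k v) (F2 k v) (F3 k v)) (hcost : CostC c o K X Cl F1 F2 F3) {p : Pt}
    {f : Pt → ℝ} (hf : Cl p f) (S : Finset (ℕ × ℤ)) (hS : ∀ s ∈ S, 1 ≤ s.1 ∧ s.1 ≤ K) :
    ∑ s ∈ S, (8 ^ s.1 : ℝ)⁻¹ * |loc s.1 (o - 2 - s.2, s.2, 0, 0)
      (fun y => pfw (c.e, c.d2, c.d3) K p f (lf c y)) (F1 s.1 s.2) (F2 s.1 s.2) (F3 s.1 s.2)| ≤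
      8 * X := by
  have e : pfw (c.e, c.d2, c.d3) K p f = push c K (cx K p) f := rfl
  rw [e]
  refine transfer_gen c (cx K p) f o F1 F2 F3 hI S hS fun q _ t => ?_
  have hx : cx K ((2 ^ K * t, p.2.1, p.2.2) : Pt) = (t, (cx K p).2.1, (cx K p).2.2) := by
    unfold cx ix
    simp only
    rw [Int.mul_ediv_cancel_left _ (by positivity)]
  have h := hcost (2 ^ K * t, p.2.1, p.2.2) _ (hCl c p (2 ^ K * t, p.2.1, p.2.2) f q hf)
  unfold cosF at h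
  rwa [hx] at h

/-- **Transfer, role 0**, nodes in a permuted position. -/
theorem transfer0C' (c : LF) (hCl : ClsF K Cl) {o : ℤ} {X : ℝ} {F1 F2 F3 : ℕ → ℤ → Pt → ℝ}
    (hI : ∀ k v, Inv c (F1 k v) (F2 k v) (F3 k v)) (hcost : CostC c o K X Cl F1 F2 F3) {p : Pt}
    {f : Pt → ℝ} (hf : Cl p f) (S : Finset (ℕ × ℤ)) (hS : ∀ s ∈ S, 1 ≤ s.1 ∧ s.1 ≤ K)
    (wp a b : ℤ → ℤ) (hw : Function.Injective wp) (bx : ℤ → Bx)
    (hbx : ∀ v, bx v = bxm c o (wp v) (a v) (b v)) :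
    ∑ s ∈ S, (8 ^ s.1 : ℝ)⁻¹ * |loc s.1 (bx s.2)
      (fun y => pfw (c.e, c.d2, c.d3) K p f (lf c y)) (F1 s.1 (wp s.2)) (F2 s.1 (wp s.2))
        (F3 s.1 (wp s.2))| ≤ 8 * X := by
  classical
  have key := transfer0C c hCl hI hcost hf (S.image fun s => (s.1, wp s.2)) (by
    intro s hs
    rw [mem_image] at hs
    obtain ⟨s', hs', rfl⟩ := hs
    exact hS s' hs')
  rw [sum_image (by
    intro s _ s' _ h
    simp only [Prod.mk.injEq] at h
    exact Prod.ext h.1 (hw h.2))] at key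
  refine le_trans (le_of_eq (sum_congr rfl fun s hs => ?_)) key
  simp only
  have e : pfw (c.e, c.d2, c.d3) K p f = push c K (cx K p) f := rfl
  rw [hbx, e, loc_inv c (hS s hs).1 (hI s.1 (wp s.2))]

/-! ### the four roles -/

theorem pfw_t12 (d : Pt) (K : ℕ) (p : Pt) (f : Pt → ℝ) :
    pfw d K p f = pfw (t12 d) K (t12 p) (fun q => f (t12 q)) := by
  funext s
  unfold pfw
  rw [← H321.sum_cube_t12 K p (fun y => if el (t12 d) y = s then f (t12 y) else 0)]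
  refine sum_congr rfl fun q _ => ?_
  have e1 : el (t12 d) (t12 q) = el d q := by unfold el t12; ring
  have e2 : t12 (t12 q) = q := rfl
  rw [e1, e2]

theorem pfw_t23 (d : Pt) (K : ℕ) (p : Pt) (f : Pt → ℝ) :
    pfw d K p f = pfw (t23 d) K (t23 p) (fun q => f (t23 q)) := by
  funext s
  unfold pfw
  rw [← H321.sum_cube_t23 K p (fun y => if el (t23 d) y = s then f (t23 y) else 0)]
  refine sum_congr rfl fun q _ => ?_
  have e1 : el (t23 d) (t23 q) = el d q := by unfold el t23; ring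
  have e2 : t23 (t23 q) = q := rfl
  rw [e1, e2]

/-- the cost hypothesis of role `i` for a class -/
def CostCR (i : Fin 4) (o : ℤ) (K : ℕ) (X : ℝ) (Cl : Pt → (Pt → ℝ) → Prop)
    (h : ℕ → ℤ → Fin 4 → ℤ → ℝ) : Prop :=
  CostC (cc i) o K X Cl (fun k v => (cmN i o h k v).1) (fun k v => (cmN i o h k v).2.1)
    (fun k v => (cmN i o h k v).2.2)

section roles

variable (hCl : ClsF K Cl) {o : ℤ} {X : ℝ} (h : ℕ → ℤ → Fin 4 → ℤ → ℝ)
include hCl

theorem node_cls0 (hcost : CostCR 0 o K X Cl h) {p : Pt} {f : Pt → ℝ} (hf : Cl p f)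
    (𝒩 : Finset (ℕ × ℤ)) (h𝒩 : ∀ N ∈ 𝒩, 1 ≤ N.1 ∧ N.1 ≤ K) :
    ∑ N ∈ 𝒩, |nd o N.1 N.2 (put 0 (h N.1 N.2) (pfw (fc 0) K p f))| ≤ 8 * X := by
  rw [node_sum_eqN o h 0 _ 𝒩 fun N hN => (h𝒩 N hN).1]
  refine le_trans (le_of_eq ?_) (transfer0C' (cc 0) hCl (invN 0 o h) hcost hf 𝒩 h𝒩
    (wi 0 o) (fun _ => 0) (fun _ => 0) (wi_inj 0 o) (fun v => (o - 2 - v, v, 0, 0)) ?_)
  · refine sum_congr rfl fun N _ => ?_
    have e0 : put 0 (h N.1 N.2) (pfw (fc 0) K p f) 0 = pfw (fc 0) K p f := rfl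
    have e1 : put 0 (h N.1 N.2) (pfw (fc 0) K p f) 1 = h N.1 N.2 1 := rfl
    have e2 : put 0 (h N.1 N.2) (pfw (fc 0) K p f) 2 = h N.1 N.2 2 := rfl
    have e3 : put 0 (h N.1 N.2) (pfw (fc 0) K p f) 3 = h N.1 N.2 3 := rfl
    rw [e0, e1, e2, e3]
    unfold cmN
    rw [wi_wi]
    rfl
  · intro v; unfold bxm; simp [H560.h0, H560.h1, c0, cc, wi]

theorem node_cls1 (hcost : CostCR 1 o K X Cl h) {p : Pt} {f : Pt → ℝ} (hf : Cl p f)
    (𝒩 : Finset (ℕ × ℤ)) (h𝒩 : ∀ N ∈ 𝒩, 1 ≤ N.1 ∧ N.1 ≤ K) :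
    ∑ N ∈ 𝒩, |nd o N.1 N.2 (put 1 (h N.1 N.2) (pfw (fc 1) K p f))| ≤ 8 * X := by
  rw [node_sum_eqN o h 1 _ 𝒩 fun N hN => (h𝒩 N hN).1]
  refine le_trans (le_of_eq ?_) (transfer0C' (cc 1) hCl (invN 1 o h) hcost hf 𝒩 h𝒩
    (wi 1 o) (fun _ => 0) (fun _ => 0) (wi_inj 1 o) (fun v => (v, o - 2 - v, 0, 0)) ?_)
  · refine sum_congr rfl fun N _ => ?_
    have e0 : put 1 (h N.1 N.2) (pfw (fc 1) K p f) 0 = h N.1 N.2 0 := rfl
    have e1 : put 1 (h N.1 N.2) (pfw (fc 1) K p f) 1 = pfw (fc 1) K p f := rfl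
    have e2 : put 1 (h N.1 N.2) (pfw (fc 1) K p f) 2 = h N.1 N.2 2 := rfl
    have e3 : put 1 (h N.1 N.2) (pfw (fc 1) K p f) 3 = h N.1 N.2 3 := rfl
    rw [e0, e1, e2, e3, ← loc_swap01]
    unfold cmN
    rw [wi_wi]
    rfl
  · intro v; unfold bxm; simp [H560.h0, H560.h1, c1, cc, wi]

theorem node_cls2 (hcost : CostCR 2 o K X Cl h) {p : Pt} {f : Pt → ℝ}
    (hf : Cl (t12 p) fun q => f (t12 q))
    (𝒩 : Finset (ℕ × ℤ)) (h𝒩 : ∀ N ∈ 𝒩, 1 ≤ N.1 ∧ N.1 ≤ K) :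
    ∑ N ∈ 𝒩, |nd o N.1 N.2 (put 2 (h N.1 N.2) (pfw (fc 2) K p f))| ≤ 8 * X := by
  rw [node_sum_eqN o h 2 _ 𝒩 fun N hN => (h𝒩 N hN).1]
  refine le_trans (le_of_eq ?_) (transfer0C' (cc 2) hCl (invN 2 o h) hcost hf 𝒩 h𝒩
    (wi 2 o) (fun v => o - 2 - v) (fun _ => 0) (wi_inj 2 o)
    (fun v => (0, v, o - 2 - v, 0)) ?_)
  · have e : s12 (lift 2 (pfw (fc 2) K p f)) =
        fun y => pfw (c2.e, c2.d2, c2.d3) K (t12 p) (fun q => f (t12 q)) (lf c2 y) := by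
      rw [pfw_t12 (fc 2) K p f]
      funext y
      have : el (fc 2) (y.2.1, y.1, y.2.2) = lf c2 y := by
        simp only [el, fc, lf, c2]; ring
      simp only [s12, lift]
      rw [this]; rfl
    refine sum_congr rfl fun N _ => ?_
    have e0 : put 2 (h N.1 N.2) (pfw (fc 2) K p f) 0 = h N.1 N.2 0 := rfl
    have e1 : put 2 (h N.1 N.2) (pfw (fc 2) K p f) 1 = h N.1 N.2 1 := rfl
    have e2 : put 2 (h N.1 N.2) (pfw (fc 2) K p f) 2 = pfw (fc 2) K p f := rfl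
    have e3 : put 2 (h N.1 N.2) (pfw (fc 2) K p f) 3 = h N.1 N.2 3 := rfl
    rw [e0, e1, e2, e3, ← loc_swap12, ← loc_swap01, ← loc_swap12, e]
    unfold cmN
    rw [wi_wi]
    rfl
  · intro v; unfold bxm; simp only [H560.h0, H560.h1, c2, cc, wi]
    ext <;> simp <;> ring

theorem node_cls3 (hcost : CostCR 3 o K X Cl h) {p : Pt} {f : Pt → ℝ}
    (hf : Cl (t12 (t23 p)) fun q => f (t23 (t12 q)))
    (𝒩 : Finset (ℕ × ℤ)) (h𝒩 : ∀ N ∈ 𝒩, 1 ≤ N.1 ∧ N.1 ≤ K) :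
    ∑ N ∈ 𝒩, |nd o N.1 N.2 (put 3 (h N.1 N.2) (pfw (fc 3) K p f))| ≤ 8 * X := by
  rw [node_sum_eqN o h 3 _ 𝒩 fun N hN => (h𝒩 N hN).1]
  refine le_trans (le_of_eq ?_) (transfer0C' (cc 3) hCl (invN 3 o h) hcost hf 𝒩 h𝒩
    (wi 3 o) (fun v => o - 2 - v) (fun v => v) (wi_inj 3 o)
    (fun v => (0, 0, o - 2 - v, v)) ?_)
  · have e : s12 (s23 (lift 3 (pfw (fc 3) K p f))) =
        fun y => pfw (c3.e, c3.d2, c3.d3) K (t12 (t23 p)) (fun q => f (t23 (t12 q))) (lf c3 y) := by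
      rw [pfw_t23 (fc 3) K p f, pfw_t12 (t23 (fc 3)) K (t23 p) (fun q => f (t23 q))]
      funext y
      have : el (fc 3) (y.2.1, y.2.2, y.1) = lf c3 y := by
        simp only [el, fc, lf, c3]; ring
      simp only [s12, s23, lift]
      rw [this]; rfl
    refine sum_congr rfl fun N _ => ?_
    have e0 : put 3 (h N.1 N.2) (pfw (fc 3) K p f) 0 = h N.1 N.2 0 := rfl
    have e1 : put 3 (h N.1 N.2) (pfw (fc 3) K p f) 1 = h N.1 N.2 1 := rfl
    have e2 : put 3 (h N.1 N.2) (pfw (fc 3) K p f) 2 = h N.1 N.2 2 := rfl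
    have e3 : put 3 (h N.1 N.2) (pfw (fc 3) K p f) 3 = pfw (fc 3) K p f := rfl
    rw [e0, e1, e2, e3, ← loc_swap23, ← loc_swap12, ← loc_swap01, ← loc_swap23, ← loc_swap12, e]
    unfold cmN
    rw [wi_wi]
    rfl
  · intro v; unfold bxm; simp only [H560.h0, H560.h1, c3, cc, wi]
    ext <;> simp <;> ring

/-- **The cost at the nodes of the push-forward of a function of the class.** -/
theorem node_cls (i : Fin 4) (hcost : CostCR i o K X Cl h) {p : Pt} {f : Pt → ℝ}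
    (hf : Cl (rp i p) fun q => f (rpi i q))
    (𝒩 : Finset (ℕ × ℤ)) (h𝒩 : ∀ N ∈ 𝒩, 1 ≤ N.1 ∧ N.1 ≤ K) :
    ∑ N ∈ 𝒩, |nd o N.1 N.2 (put i (h N.1 N.2) (pfw (fc i) K p f))| ≤ 8 * X := by
  obtain rfl | rfl | rfl | rfl := fin4 i
  · exact node_cls0 hCl h hcost hf 𝒩 h𝒩
  · exact node_cls1 hCl h hcost hf 𝒩 h𝒩
  · exact node_cls2 hCl h hcost hf 𝒩 h𝒩
  · exact node_cls3 hCl h hcost hf 𝒩 h𝒩

/-- the same with 855's `wN` -/
theorem wN_cls (i : Fin 4) (hcost : CostCR i o K X Cl h) {p : Pt} {f : Pt → ℝ}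
    (hf : Cl (rp i p) fun q => f (rpi i q))
    (𝒩 : Finset (ℕ × ℤ)) (h𝒩 : ∀ N ∈ 𝒩, 1 ≤ N.1 ∧ N.1 ≤ K) :
    ∑ N ∈ 𝒩, |PL.H855.wN o (Function.update (h N.1 N.2) i (pfw (fc i) K p f)) N| ≤ 8 * X := by
  refine le_trans (le_of_eq (sum_congr rfl fun N _ => ?_)) (node_cls hCl h i hcost hf 𝒩 h𝒩)
  have e : Function.update (h N.1 N.2) i (pfw (fc i) K p f) =
      put i (h N.1 N.2) (pfw (fc i) K p f) := by
    funext l
    unfold put
    by_cases hl : l = i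
    · subst hl
      rw [Function.update_self, if_pos rfl]
    · rw [Function.update_of_ne hl, if_neg hl]
  rw [e]
  rfl

end roles

/-! ### the transpositions on the boxes -/

theorem cosF_t23 (o : ℤ) (K : ℕ) (x : Pt) (f : Pt → ℝ) (F1 F2 F3 : ℕ → Pt → Pt → ℝ) :
    cosF o K (t23 x) (fun p => f (t23 p)) (fun k m => s23 (F1 k (t23 m)))
      (fun k m => F3 k (t23 m)) (fun k m => F2 k (t23 m)) = cosF o K x f F1 F2 F3 := by
  unfold cosF
  refine sum_congr rfl fun k _ => ?_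
  congr 1
  have e1 : cx K (t23 x) = t23 (cx K x) := rfl
  rw [e1, ← H414.sum_cbs_t23]
  refine sum_congr rfl fun m _ => ?_
  have e2 : (fun p => f (t23 p)) = s23 f := rfl
  have e3 : bx0 o (t23 m) = ((bx0 o m).1, (bx0 o m).2.1, (bx0 o m).2.2.2, (bx0 o m).2.2.1) := by
    unfold bx0 t23
    ext <;> simp
    ring
  have e4 : t23 (t23 m) = m := rfl
  rw [e2, e3]
  dsimp only
  rw [e4]
  exact congrArg abs (loc_swap23 _ _ _ _ _ _)

theorem cosF_t12 (o : ℤ) (K : ℕ) (x : Pt) (f : Pt → ℝ) (F1 F2 F3 : ℕ → Pt → Pt → ℝ) :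
    cosF o K (t12 x) (fun p => f (t12 p)) (fun k m => F2 k (t12 m)) (fun k m => F1 k (t12 m))
      (fun k m => s23 (F3 k (t12 m))) = cosF o K x f F1 F2 F3 := by
  unfold cosF
  refine sum_congr rfl fun k _ => ?_
  congr 1
  have e1 : cx K (t12 x) = t12 (cx K x) := rfl
  rw [e1, ← H414.sum_cbs_t12]
  refine sum_congr rfl fun m _ => ?_
  have e2 : (fun p => f (t12 p)) = s12 f := rfl
  have e3 : bx0 o (t12 m) = ((bx0 o m).1, (bx0 o m).2.2.1, (bx0 o m).2.1, (bx0 o m).2.2.2) := by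
    unfold bx0 t12
    ext <;> simp
    ring
  have e4 : t12 (t12 m) = m := rfl
  rw [e2, e3]
  dsimp only
  rw [e4]
  exact congrArg abs (loc_swap12 _ _ _ _ _ _)

end

end Vale.Agent.P141.H639
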